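import Vale.Agent.P128.TA2.Main

/-! P128 C/EnM (TASK): the energy as a measure, an averaging lemma for thin annuli and a
pointwise derivative bound.

Plan. `En_eq_enM`: `withDensity_apply`, `Measure.restrict_restrict`, `Measure.restrict_apply`.
`En_mono`: `lintegral_mono_set`, `measure_mono`. `En_split`: `measure_inter_add_diff` for `enM`.
`annulus_avg`: write `ν (A s) = ∫⁻ z, indicator {p : ℝ × ℂ | (1-σ) p.1 ≤ dist p.2 y ∧ dist p.2 y ≤ p.1} 1 (s, z) ∂ν`
(the set is closed), measurability by `measurable_measure_prodMk_left`; swap with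
`lintegral_lintegral_swap`; for fixed `z` with `d = dist z y` the set of `s ∈ Ioo 0 t` is empty if
`t < d` and is contained in `Icc d (d / (1 - σ))`, of length `σ d / (1 - σ) ≤ 2 σ t`, otherwise.
`norm_fderiv_trunc`: `norm_fderiv_le_of_lip'` with constant `‖Df‖ + ‖De‖ + M |T (e z)| + 2η`
(`HasFDerivAt.isLittleO` gives `|f p - f z| ≤ (‖Df‖ + η) ‖p - z‖` near `z`), using
`ψ p * T (e p) - ψ z * T (e z) = ψ p * (T (e p) - T (e z)) + (ψ p - ψ z) * T (e z)`; then
`le_of_forall_pos_le_add`.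
`locLip_trunc`: near a point `f` and `e` are Lipschitz, `T ∘ e` is Lipschitz and bounded on a small
neighbourhood within `U`; same identity. -/

namespace Vale.Agent.P128

open MeasureTheory Set Metric Filter Topology
open scoped ENNReal NNReal

/-- The energy as a measure. -/
noncomputable def enM (u : ℂ → ℝ) (K : Set ℂ) : Measure ℂ :=
  (volume.restrict Kᶜ).withDensity (fun z => ‖fderiv ℝ u z‖ₑ ^ 2) + μH[1].restrict K

theorem En_eq_enM (u : ℂ → ℝ) (K : Set ℂ) {S : Set ℂ} (hS : MeasurableSet S) :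
    En u K S = enM u K S := by
  unfold En Dir enM
  rw [Measure.add_apply, withDensity_apply _ hS, Measure.restrict_restrict hS,
    Measure.restrict_apply hS, inter_comm S K, sdiff_eq]

theorem En_mono (u : ℂ → ℝ) (K : Set ℂ) {S T : Set ℂ} (h : S ⊆ T) : En u K S ≤ En u K T := by
  exact add_le_add (lintegral_mono_set (sdiff_subset_sdiff_left h))
    (measure_mono (inter_subset_inter_right _ h))

theorem En_split (u : ℂ → ℝ) (K : Set ℂ) {S T : Set ℂ} (hS : MeasurableSet S)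
    (hT : MeasurableSet T) (h : S ⊆ T) : En u K T = En u K S + En u K (T \ S) := by
  rw [En_eq_enM u K hT, En_eq_enM u K hS, En_eq_enM u K (hT.diff hS),
    ← measure_inter_add_sdiff T hS, inter_eq_self_of_subset_right h]

theorem annulus_avg (ν : Measure ℂ) [IsFiniteMeasure ν] (y : ℂ) {t σ : ℝ} (ht : 0 < t)
    (hσ : 0 < σ) (hσ2 : σ ≤ 1 / 2) :
    Measurable (fun s : ℝ => ν (closedBall y s \ ball y ((1 - σ) * s))) ∧
    ∫⁻ s in Ioo 0 t, ν (closedBall y s \ ball y ((1 - σ) * s)) ≤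
      ENNReal.ofReal (2 * σ * t) * ν (closedBall y t) := by
  have hA : MeasurableSet {p : ℝ × ℂ | dist p.2 y ≤ p.1 ∧ (1 - σ) * p.1 ≤ dist p.2 y} :=
    MeasurableSet.inter (s₁ := {p : ℝ × ℂ | dist p.2 y ≤ p.1})
      (s₂ := {p : ℝ × ℂ | (1 - σ) * p.1 ≤ dist p.2 y})
      (measurableSet_le (by fun_prop) (by fun_prop)) (measurableSet_le (by fun_prop) (by fun_prop))
  have e : ∀ s : ℝ, closedBall y s \ ball y ((1 - σ) * s) =
      Prod.mk s ⁻¹' {p : ℝ × ℂ | dist p.2 y ≤ p.1 ∧ (1 - σ) * p.1 ≤ dist p.2 y} := fun s => by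
    ext z
    simp [mem_closedBall, mem_ball]
  simp only [e]
  refine ⟨measurable_measure_prodMk_left hA, ?_⟩
  rw [← Measure.prod_apply hA, Measure.prod_apply_symm hA,
    ← lintegral_indicator_const measurableSet_closedBall]
  refine lintegral_mono fun z => ?_
  have hd : 0 ≤ dist z y := dist_nonneg
  rw [Measure.restrict_apply (measurable_prodMk_right hA)]
  by_cases hz : z ∈ closedBall y t
  · rw [indicator_of_mem hz]
    have hz' : dist z y ≤ t := hz
    refine (measure_mono (t := Icc (dist z y) (dist z y + 2 * σ * t)) fun s hs => ?_).trans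
      (by rw [Real.volume_Icc, add_sub_cancel_left])
    obtain ⟨⟨h1, h2⟩, h3, h4⟩ := hs
    exact ⟨h1, by nlinarith⟩
  · rw [indicator_of_notMem hz]
    refine (measure_mono (t := ∅) fun s hs => hz ?_).trans measure_empty.le
    exact hs.1.1.trans hs.2.2.le

theorem EnM_near {f : ℂ → ℝ} {z : ℂ} (hf : DifferentiableAt ℝ f z) {η : ℝ} (hη : 0 < η) :
    ∀ᶠ p in 𝓝 z, |f p - f z| ≤ (‖fderiv ℝ f z‖ + η) * ‖p - z‖ := by
  filter_upwards [hf.hasFDerivAt.isLittleO.def hη] with p hp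
  have h1 := (fderiv ℝ f z).le_opNorm (p - z)
  have h2 := norm_sub_norm_le (f p - f z) (fderiv ℝ f z (p - z))
  rw [← Real.norm_eq_abs]
  linarith

theorem EnM_key {f e ψ : ℂ → ℝ} {T : ℝ → ℝ} {M : ℝ≥0} (hψ : LipschitzWith M ψ)
    (h1 : ∀ p, |ψ p| ≤ 1) (hT : LipschitzWith 1 T) (p q : ℂ) :
    |f p + ψ p * T (e p) - (f q + ψ q * T (e q))| ≤
      |f p - f q| + |e p - e q| + M * |T (e q)| * dist p q := by
  have h2 := hψ.dist_le_mul p q
  have h3 := hT.dist_le_mul (e p) (e q)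
  rw [NNReal.coe_one, one_mul, Real.dist_eq, Real.dist_eq] at h3
  rw [Real.dist_eq] at h2
  rw [show f p + ψ p * T (e p) - (f q + ψ q * T (e q)) =
    f p - f q + ψ p * (T (e p) - T (e q)) + (ψ p - ψ q) * T (e q) by ring]
  refine (abs_add_three _ _ _).trans (add_le_add (add_le_add le_rfl ?_) ?_)
  · rw [abs_mul]
    exact (mul_le_of_le_one_left (abs_nonneg _) (h1 p)).trans h3
  · rw [abs_mul, mul_right_comm]
    exact mul_le_mul_of_nonneg_right h2 (abs_nonneg _)

theorem norm_fderiv_trunc {f e ψ : ℂ → ℝ} {T : ℝ → ℝ} {z : ℂ} {M : ℝ≥0}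
    (hf : DifferentiableAt ℝ f z) (he : DifferentiableAt ℝ e z) (hψ : LipschitzWith M ψ)
    (h1 : ∀ p, |ψ p| ≤ 1) (hT : LipschitzWith 1 T) :
    ‖fderiv ℝ (fun p => f p + ψ p * T (e p)) z‖ ≤
      ‖fderiv ℝ f z‖ + ‖fderiv ℝ e z‖ + M * |T (e z)| := by
  refine le_of_forall_pos_le_add fun η hη => norm_fderiv_le_of_lip' ℝ (by positivity) ?_
  filter_upwards [EnM_near hf (half_pos hη), EnM_near he (half_pos hη)] with p h2 h3
  have h4 := EnM_key (f := f) (e := e) hψ h1 hT p z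
  rw [Real.norm_eq_abs]
  rw [dist_eq_norm] at h4
  nlinarith

theorem locLip_trunc {U : Set ℂ} {f e ψ : ℂ → ℝ} {T : ℝ → ℝ} {M : ℝ≥0}
    (hf : LocallyLipschitzOn U f) (he : LocallyLipschitzOn U e) (hψ : LipschitzWith M ψ)
    (h1 : ∀ p, |ψ p| ≤ 1) (hT : LipschitzWith 1 T) :
    LocallyLipschitzOn U (fun p => f p + ψ p * T (e p)) := by
  intro z hz
  obtain ⟨C, t, ht, hC⟩ := hf hz
  obtain ⟨D, t', ht', hD⟩ := he hz
  have hz' : z ∈ t' := mem_of_mem_nhdsWithin hz ht'
  refine ⟨C + D + M * (‖T (e z)‖₊ + D), t ∩ t' ∩ ball z 1,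
    inter_mem (inter_mem ht ht') (nhdsWithin_le_nhds (ball_mem_nhds z one_pos)),
    LipschitzOnWith.of_dist_le_mul fun p hp q hq => ?_⟩
  have h2 := hC.dist_le_mul p hp.1.1 q hq.1.1
  have h3 := hD.dist_le_mul p hp.1.2 q hq.1.2
  have h4 := EnM_key (f := f) (e := e) hψ h1 hT p q
  have h5 := hD.dist_le_mul q hq.1.2 z hz'
  have h6 := hT.dist_le_mul (e q) (e z)
  have h7 : dist q z < 1 := hq.2
  have h8 : |T (e q)| ≤ |T (e z)| + D := by
    have := abs_sub_abs_le_abs_sub (T (e q)) (T (e z))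
    rw [NNReal.coe_one, one_mul, Real.dist_eq] at h6
    nlinarith [D.coe_nonneg]
  have h9 := mul_le_mul_of_nonneg_right (mul_le_mul_of_nonneg_left h8 M.coe_nonneg)
    (dist_nonneg (x := p) (y := q))
  rw [Real.dist_eq] at h2 h3 ⊢
  push_cast
  rw [Real.norm_eq_abs]
  linarith

end Vale.Agent.P128
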