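import Vale.Agent.P128.C.Cover
import Vale.Agent.P128.C.EnM

/-! P128 C/Fatou (TASK): first properties of a limit in the sense of `Conv0`.

Plan. `Seq.ev_ball`: `closedBall y r ⊆ closedBall 0 (‖y‖ + r)`.
`Conv0.dir_lsc`: Fatou (`lintegral_liminf_le`) for `f n = indicator (S \ K n) (‖fderiv ℝ (u n) ·‖ₑ^2)`
(`measurable_fderiv`); for `z ∈ S \ L`, eventually `z ∉ K n` (`h.up {z}`) and the gradients converge
(`TendstoLocallyUniformlyOn.tendsto_at`).
`lim_len`: `cover` with `μ n = μH[1].restrict (K n)`, `V = ball y r`, `θ = c/2`: for `x ∈ L`, `t > 0`,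
eventually there is `y' ∈ K n ∩ ball x (t/2)` and `closedBall y' (t/2) ⊆ closedBall x t ⊆ Ω n`, so
`dens` applies; the liminf is at most `8 r` by `AM0.upper`.
`lim_vol`: `vol_zero_of_len` on the balls `ball 0 (k+1)`. `lim_dir`: `dir_lsc` and `AM0.upper`.
`l1_usc`: let `β > 0` with `β * 8 r ≤ η/3`; choose `κ` with
`volume (thickening κ (L ∩ closedBall y (r+1))) ≤ ofReal (β η / 3)`
(`tendsto_measure_thickening_of_isClosed`); on `E = thickening` use `x ≤ β x^2 + 1/β`; on the
compact set `closedBall y r \ E`, disjoint from `L`, the gradients converge uniformly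
(`tendstoLocallyUniformlyOn_iff_forall_isCompact`), so
`‖fderiv (u n) z‖ ≤ ‖fderiv v z‖ + τ` with `τ π r^2 ≤ η/3`.
`l1_le`: `x ≤ β x^2 + 1/β` with `β = √t / η` and `Complex.volume_ball`. -/

namespace Vale.Agent.P128

open MeasureTheory Set Metric Filter Topology
open scoped ENNReal NNReal

variable {c : ℝ} {Ω : ℕ → Set ℂ} {ε : ℕ → ℝ} {wk : ℕ → Prop} {u : ℕ → ℂ → ℝ} {K : ℕ → Set ℂ}
  {v : ℂ → ℝ} {L : Set ℂ}

theorem Seq.ev_ball (hs : Seq c Ω ε wk u K) (y : ℂ) (r : ℝ) :
    ∀ᶠ n in atTop, closedBall y r ⊆ Ω n := by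
  exact (hs.dom (r + ‖y‖)).mono fun n hn =>
    (closedBall_subset_closedBall' (by rw [dist_zero_right])).trans hn

theorem Seq.ev_compact (hs : Seq c Ω ε wk u K) {C : Set ℂ} (hC : IsCompact C) :
    ∀ᶠ n in atTop, C ⊆ Ω n := by
  obtain ⟨r, hr⟩ := hC.isBounded.subset_closedBall 0
  exact (hs.dom r).mono fun n hn => hr.trans hn

theorem Conv0.dir_lsc (h : Conv0 u K v L) (hK : ∀ n, IsClosed (K n)) {S : Set ℂ}
    (hS : MeasurableSet S) : Dir v (S \ L) ≤ liminf (fun n => Dir (u n) (S \ K n)) atTop := by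
  have hm : ∀ w : ℂ → ℝ, Measurable fun z => ‖fderiv ℝ w z‖ₑ ^ 2 := fun w =>
    (measurable_fderiv ℝ w).enorm.pow_const 2
  have hn : ∀ n, MeasurableSet (S \ K n) := fun n => hS.diff (hK n).measurableSet
  simp only [Dir, ← lintegral_indicator (hn _), ← lintegral_indicator
    (hS.diff h.closed.measurableSet)]
  refine le_trans (lintegral_mono fun z => ?_)
    (lintegral_liminf_le fun n => (hm (u n)).indicator (hn n))
  by_cases hz : z ∈ S \ L
  · rw [indicator_of_mem hz]
    refine (Tendsto.liminf_eq ?_).ge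
    refine (ENNReal.Tendsto.pow (n := 2) (h.grad.tendsto_at hz.2).enorm).congr' ?_
    filter_upwards [h.up {z} isCompact_singleton (disjoint_singleton_left.2 hz.2)] with n h1
    rw [indicator_of_mem (show z ∈ S \ K n from ⟨hz.1, disjoint_singleton_left.1 h1⟩)]
  · rw [indicator_of_notMem hz]
    exact zero_le

theorem lim_len (hs : Seq c Ω ε wk u K) (h : Conv0 u K v L) (y : ℂ) {r : ℝ} (hr : 0 < r) :
    μH[1] (L ∩ ball y r) ≤ ENNReal.ofReal (32 * r / c) := by
  have hc := (hs.am 0).cpos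
  have h1 := cover (L ∩ ball y r) (ball y r) isOpen_ball inter_subset_right
    (fun n => μH[1].restrict (K n)) (c / 2) (by positivity) fun x hx δ hδ =>
      ⟨δ / 2, ⟨by positivity, by linarith⟩, by
        filter_upwards [h.low x hx.1 (δ / 4) (by positivity), hs.ev_ball x (δ / 2)] with n h1 h2
        obtain ⟨p, hp, hp'⟩ := h1
        have h3 : closedBall p (δ / 4) ⊆ closedBall x (δ / 2) :=
          closedBall_subset_closedBall' (by linarith [mem_ball.1 hp'])
        rw [Measure.restrict_apply measurableSet_closedBall,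
          show c / 2 * (δ / 2) = c * (δ / 4) by ring]
        exact ((hs.am n).dens p hp _ (by positivity) (h3.trans h2)).trans
          (measure_mono fun z hz => ⟨h3 (ball_subset_closedBall hz.2), hz.1⟩)⟩
  have h2 : liminf (fun n => μH[1].restrict (K n) (ball y r)) atTop ≤ ENNReal.ofReal (8 * r) := by
    refine liminf_le_of_frequently_le' (Eventually.frequently ?_)
    filter_upwards [hs.ev_ball y r] with n hn
    rw [Measure.restrict_apply measurableSet_ball]
    refine le_trans (le_add_left (measure_mono ?_)) ((hs.am n).upper hr hn)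
    exact fun z hz => ⟨hz.2, ball_subset_closedBall hz.1⟩
  have h3 := mul_le_mul_right (h1.trans h2) (ENNReal.ofReal (4 / c))
  rwa [← mul_assoc, ← ENNReal.ofReal_mul (by positivity), ← ENNReal.ofReal_mul (by positivity),
    show 4 / c * (c / 2 / 2) = 1 by field_simp; norm_num, ENNReal.ofReal_one, one_mul,
    show 4 / c * (8 * r) = 32 * r / c by ring] at h3

theorem lim_vol (hs : Seq c Ω ε wk u K) (h : Conv0 u K v L) : volume L = 0 := by
  rw [← inter_univ L, ← iUnion_ball_nat_succ (0 : ℂ), inter_iUnion]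
  exact measure_iUnion_null fun k => vol_zero_of_len
    ((lim_len hs h 0 (Nat.cast_add_one_pos k)).trans_lt ENNReal.ofReal_lt_top)

theorem lim_dir (hs : Seq c Ω ε wk u K) (h : Conv0 u K v L) (y : ℂ) {r : ℝ} (hr : 0 < r) :
    Dir v (closedBall y r \ L) ≤ ENNReal.ofReal (8 * r) := by
  refine (h.dir_lsc (fun n => (hs.am n).closed) measurableSet_closedBall).trans
    (liminf_le_of_frequently_le' (Eventually.frequently ?_))
  filter_upwards [hs.ev_ball y r] with n hn
  exact le_trans le_self_add ((hs.am n).upper hr hn)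

theorem Fatou_ball (y : ℂ) {r : ℝ} (hr : 0 ≤ r) :
    volume (ball y r) = ENNReal.ofReal (Real.pi * r ^ 2) := by
  rw [Complex.volume_ball, mul_comm, ENNReal.ofReal_mul Real.pi_pos.le, ENNReal.ofReal_pow hr,
    ← NNReal.coe_real_pi, ENNReal.ofReal_coe_nnreal]

theorem Fatou_amgm (w : ℂ → ℝ) (S : Set ℂ) {β A B : ℝ} (hβ : 0 < β) (hA : 0 ≤ A) (hB : 0 ≤ B)
    (h1 : Dir w S ≤ ENNReal.ofReal A) (h2 : volume S ≤ ENNReal.ofReal B) :
    (∫⁻ z in S, ‖fderiv ℝ w z‖ₑ) ≤ ENNReal.ofReal (β * A + 1 / β * B) := by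
  have h3 : ∀ z, ‖fderiv ℝ w z‖ₑ ≤
      ENNReal.ofReal β * ‖fderiv ℝ w z‖ₑ ^ 2 + ENNReal.ofReal (1 / β) := fun z => by
    rw [← ofReal_norm, ← ENNReal.ofReal_pow (norm_nonneg _), ← ENNReal.ofReal_mul hβ.le,
      ← ENNReal.ofReal_add (by positivity) (by positivity)]
    refine ENNReal.ofReal_le_ofReal ?_
    rw [← sub_le_iff_le_add', le_div_iff₀ hβ]
    nlinarith [sq_nonneg (β * ‖fderiv ℝ w z‖ - 1), sq_nonneg (β * ‖fderiv ℝ w z‖)]
  refine (lintegral_mono h3).trans ?_
  rw [lintegral_add_right _ measurable_const, lintegral_const_mul' _ _ ENNReal.ofReal_ne_top,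
    setLIntegral_const, ENNReal.ofReal_add (by positivity) (by positivity),
    ENNReal.ofReal_mul hβ.le, ENNReal.ofReal_mul (by positivity : 0 ≤ 1 / β)]
  exact add_le_add (mul_le_mul_right h1 _) (mul_le_mul_right h2 _)

theorem l1_usc (hs : Seq c Ω ε wk u K) (h : Conv0 u K v L) (y : ℂ) {r η : ℝ} (hr : 0 < r)
    (hη : 0 < η) : ∀ᶠ n in atTop, (∫⁻ z in ball y r \ K n, ‖fderiv ℝ (u n) z‖ₑ) ≤
      (∫⁻ z in ball y r \ L, ‖fderiv ℝ v z‖ₑ) + ENNReal.ofReal η := by
  obtain ⟨β, hβ, e1⟩ : ∃ β : ℝ, 0 < β ∧ β * (8 * r) = η / 3 :=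
    ⟨η / (24 * r), by positivity, by field_simp; norm_num⟩
  obtain ⟨τ, hτ, e2⟩ : ∃ τ : ℝ, 0 < τ ∧ τ * (Real.pi * r ^ 2) = η / 3 :=
    ⟨η / (3 * (Real.pi * r ^ 2)), by positivity, by field_simp⟩
  obtain ⟨U, hLU, hU, hv⟩ := L.exists_isOpen_lt_of_lt (μ := volume) (ENNReal.ofReal (β * η / 3))
    (by rw [lim_vol hs h]; exact ENNReal.ofReal_pos.2 (by positivity))
  have h1 := (tendstoLocallyUniformlyOn_iff_forall_isCompact h.closed.isOpen_compl).1 h.grad
    (closedBall y r \ U) (fun z hz hL => hz.2 (hLU hL)) ((isCompact_closedBall y r).diff hU)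
  filter_upwards [hs.ev_ball y r, Metric.tendstoUniformlyOn_iff.1 h1 τ hτ] with n h2 h3
  have k1 := Fatou_amgm (u n) ((ball y r \ K n) ∩ U) hβ (by positivity) (by positivity)
    ((lintegral_mono_set (t := closedBall y r \ K n)
      fun z hz => ⟨ball_subset_closedBall hz.1.1, hz.1.2⟩).trans
      (le_trans le_self_add ((hs.am n).upper hr h2)))
    ((measure_mono inter_subset_right).trans hv.le)
  have k2 : (∫⁻ z in ball y r \ U, ‖fderiv ℝ (u n) z‖ₑ) ≤
      (∫⁻ z in ball y r \ L, ‖fderiv ℝ v z‖ₑ) + ENNReal.ofReal (η / 3) := by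
    refine (setLIntegral_mono' (g := fun z => ‖fderiv ℝ v z‖ₑ + ENNReal.ofReal τ)
      (measurableSet_ball.diff hU.measurableSet) fun z hz => ?_).trans ?_
    · rw [← ofReal_norm, ← ofReal_norm,
        ← ENNReal.ofReal_add (norm_nonneg _) hτ.le]
      refine ENNReal.ofReal_le_ofReal ?_
      have h4 := h3 z ⟨ball_subset_closedBall hz.1, hz.2⟩
      rw [dist_comm, dist_eq_norm] at h4
      linarith [norm_sub_norm_le (fderiv ℝ (u n) z) (fderiv ℝ v z)]
    · rw [lintegral_add_right _ measurable_const, setLIntegral_const, ← e2,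
        ENNReal.ofReal_mul hτ.le, ← Fatou_ball y hr.le]
      exact add_le_add (lintegral_mono_set (sdiff_subset_sdiff_right hLU))
        (mul_le_mul_right (measure_mono sdiff_subset) _)
  refine (lintegral_mono_set (t := ((ball y r \ K n) ∩ U) ∪ (ball y r \ U)) fun z hz => ?_).trans
    ((lintegral_union_le _ _ _).trans ((add_le_add k1 k2).trans_eq ?_))
  · by_cases hz' : z ∈ U
    · exact Or.inl ⟨hz, hz'⟩
    · exact Or.inr ⟨hz.1, hz'⟩
  · rw [add_left_comm, ← ENNReal.ofReal_add (by positivity) (by positivity), e1]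
    congr 2
    field_simp
    norm_num

theorem l1_le (v : ℂ → ℝ) (L : Set ℂ) (y : ℂ) {t η : ℝ} (ht : 0 < t) (hη : 0 < η)
    (hD : Dir v (ball y t \ L) ≤ ENNReal.ofReal (η ^ 2 * t)) :
    (∫⁻ z in ball y t \ L, ‖fderiv ℝ v z‖ₑ) ≤ ENNReal.ofReal (5 * η * t * √t) := by
  have hs : 0 < √t := Real.sqrt_pos.2 ht
  refine (Fatou_amgm v _ (β := √t / η) (by positivity) (by positivity) (by positivity) hD
    ((measure_mono sdiff_subset).trans_eq (Fatou_ball y ht.le))).trans (ENNReal.ofReal_le_ofReal ?_)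
  have e : t = √t ^ 2 := (Real.sq_sqrt ht.le).symm
  generalize √t = s at e hs
  subst e
  have e1 : s / η * (η ^ 2 * s ^ 2) + 1 / (s / η) * (Real.pi * (s ^ 2) ^ 2) =
      (1 + Real.pi) * (η * s ^ 2 * s) := by
    field_simp
  rw [e1]
  nlinarith [Real.pi_le_four, mul_pos (mul_pos hη (pow_pos hs 2)) hs]

end Vale.Agent.P128
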