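import Vale.Agent.P128.Defs

/-! P128 C/AA (TASK): a local Arzela-Ascoli theorem for eventually equi-Lipschitz sequences.

Plan. Let `q` be `TopologicalSpace.denseSeq ℂ`. Choose a bound `M z` for every `z ∈ U` (and `0`
otherwise). The clipped sequence `n ↦ (j ↦ if ‖F n (q j)‖ ≤ M (q j) then F n (q j) else 0)` lies
in the compact set `Set.pi univ (fun j => closedBall 0 (M (q j)))` of `ℕ → ℂ`
(`isCompact_univ_pi`, `IsCompact.tendsto_subseq`), so along `φ` the values `F (φ n) (q j)`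
converge whenever `q j ∈ U`. For `z ∈ U` with `δ, M` from `h` (shrink `δ` so that the ball is
in `U`) the sequence is uniformly Cauchy on `ball z (δ/2)`: cover `closedBall z (δ/2)` by finitely
many small balls around points `q j ∈ ball z δ` and use the Lipschitz bound (three epsilon
argument). Put `G w = limUnder atTop (fun n => F (φ n) w)` and use
`UniformCauchySeqOn.tendstoUniformlyOn_of_tendsto`, then
`tendstoLocallyUniformlyOn_of_forall_exists_nhds` (or the definition). -/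

namespace Vale.Agent.P128

open MeasureTheory Set Metric Filter Topology
open scoped ENNReal NNReal

private lemma sub_AA (U : Set ℂ) (F : ℕ → ℂ → ℂ) (q : ℕ → ℂ)
    (h : ∀ z ∈ U, ∃ M : ℝ, ∀ᶠ n in atTop, ‖F n z‖ ≤ M) :
    ∃ φ : ℕ → ℕ, StrictMono φ ∧ ∀ j, q j ∈ U → CauchySeq (fun n => F (φ n) (q j)) := by
  classical
  choose! M hM using h
  let x : ℕ → ℕ → ℂ := fun n j => if ‖F n (q j)‖ ≤ M (q j) then F n (q j) else 0
  have hc : IsCompact (Set.pi univ (fun j : ℕ => closedBall (0 : ℂ) (max (M (q j)) 0))) :=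
    isCompact_univ_pi fun j => isCompact_closedBall _ _
  have hx : ∀ n, x n ∈ Set.pi univ (fun j : ℕ => closedBall (0 : ℂ) (max (M (q j)) 0)) := by
    intro n j _
    rw [mem_closedBall_zero_iff]
    simp only [x]
    split_ifs with hh
    · exact hh.trans (le_max_left _ _)
    · simp
  obtain ⟨a, -, φ, hφ, ha⟩ := hc.tendsto_subseq hx
  refine ⟨φ, hφ, fun j hj => ?_⟩
  have h1 : Tendsto (fun n => x (φ n) j) atTop (𝓝 (a j)) := tendsto_pi_nhds.1 ha j
  have h2 : ∀ᶠ n in atTop, x (φ n) j = F (φ n) (q j) := by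
    filter_upwards [hφ.tendsto_atTop.eventually (hM _ hj)] with n hn
    simp only [x, if_pos hn]
  exact (h1.congr' h2).cauchySeq

private lemma cauchy_AA {F : ℕ → ℂ → ℂ} {z : ℂ} {δ : ℝ} (hδ : 0 < δ) {M : ℝ≥0}
    (hL : ∀ᶠ n in atTop, LipschitzOnWith M (F n) (ball z δ))
    (hq : ∀ e : ℝ, 0 < e → ∃ y, dist y z < e ∧ CauchySeq (fun n => F n y)) :
    CauchySeq (fun n => F n z) := by
  rw [Metric.cauchySeq_iff]
  intro ε hε
  have hM : (0 : ℝ) ≤ M := M.2
  obtain ⟨y, hy, hcy⟩ := hq (min δ (ε / (3 * (M + 1)))) (by positivity)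
  obtain ⟨N1, hN1⟩ := Metric.cauchySeq_iff.1 hcy (ε / 3) (by positivity)
  obtain ⟨N2, hN2⟩ := eventually_atTop.1 hL
  have hyb : y ∈ ball z δ := mem_ball.2 (hy.trans_le (min_le_left _ _))
  have hyd : (M : ℝ) * dist y z ≤ ε / 3 := by
    have h1 : dist y z ≤ ε / (3 * (M + 1)) := (hy.trans_le (min_le_right _ _)).le
    calc (M : ℝ) * dist y z ≤ (M + 1) * (ε / (3 * (M + 1))) := by gcongr; linarith
      _ = ε / 3 := by field_simp
  refine ⟨max N1 N2, fun m hm n hn => ?_⟩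
  have a1 := (hN2 m (le_of_max_le_right hm)).dist_le_mul y hyb z (mem_ball_self hδ)
  have a2 := (hN2 n (le_of_max_le_right hn)).dist_le_mul y hyb z (mem_ball_self hδ)
  have a3 := hN1 m (le_of_max_le_left hm) n (le_of_max_le_left hn)
  have a4 := dist_triangle4 (F m z) (F m y) (F n y) (F n z)
  rw [dist_comm (F m z) (F m y)] at a4
  linarith

private lemma unif_AA {F : ℕ → ℂ → ℂ} {G : ℂ → ℂ} {S C : Set ℂ} (hC : IsCompact C) (hCS : C ⊆ S)
    {M : ℝ≥0} (hL : ∀ᶠ n in atTop, LipschitzOnWith M (F n) S)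
    (hG : ∀ w ∈ S, Tendsto (fun n => F n w) atTop (𝓝 (G w))) :
    TendstoUniformlyOn F G atTop C := by
  have hM : (0 : ℝ) ≤ M := M.2
  have hGL : ∀ x ∈ S, ∀ y ∈ S, dist (G x) (G y) ≤ M * dist x y := by
    intro x hx y hy
    refine le_of_tendsto ((hG x hx).dist (hG y hy)) ?_
    filter_upwards [hL] with n hn
    exact hn.dist_le_mul x hx y hy
  rw [Metric.tendstoUniformlyOn_iff]
  intro ε hε
  obtain ⟨t, htC, htf, hcov⟩ :=
    finite_cover_balls_of_compact hC (e := ε / (3 * (M + 1))) (by positivity)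
  have h1 : ∀ᶠ n in atTop, ∀ y ∈ t, dist (F n y) (G y) < ε / 3 := by
    rw [eventually_all_finite htf]
    intro y hy
    exact Metric.tendsto_nhds.1 (hG y (hCS (htC hy))) _ (by positivity)
  filter_upwards [h1, hL] with n hn hn' x hx
  obtain ⟨y, hy, hxy⟩ := mem_iUnion₂.1 (hcov hx)
  have hyS := hCS (htC hy)
  have hd : (M : ℝ) * dist x y ≤ ε / 3 := by
    have h2 : dist x y ≤ ε / (3 * (M + 1)) := (mem_ball.1 hxy).le
    calc (M : ℝ) * dist x y ≤ (M + 1) * (ε / (3 * (M + 1))) := by gcongr; linarith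
      _ = ε / 3 := by field_simp
  have a1 := hGL x (hCS hx) y hyS
  have a2 := hn'.dist_le_mul x (hCS hx) y hyS
  have a3 := hn y hy
  have a4 := dist_triangle4 (G x) (G y) (F n y) (F n x)
  rw [dist_comm (G y), dist_comm (F n y) (F n x)] at a4
  linarith

theorem local_arzela (U : Set ℂ) (hU : IsOpen U) (F : ℕ → ℂ → ℂ)
    (h : ∀ z ∈ U, ∃ δ : ℝ, 0 < δ ∧ ∃ M : ℝ≥0, ∀ᶠ n in atTop,
      LipschitzOnWith M (F n) (ball z δ) ∧ ∀ w ∈ ball z δ, ‖F n w‖ ≤ M) :
    ∃ φ : ℕ → ℕ, StrictMono φ ∧ ∃ G : ℂ → ℂ,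
      TendstoLocallyUniformlyOn (fun n => F (φ n)) G atTop U := by
  obtain ⟨φ, hφ, hq⟩ := sub_AA U F (TopologicalSpace.denseSeq ℂ) (fun z hz => by
    obtain ⟨δ, hδ, M, hM⟩ := h z hz
    exact ⟨M, hM.mono fun n hn => hn.2 z (mem_ball_self hδ)⟩)
  have hc : ∀ z ∈ U, CauchySeq (fun n => F (φ n) z) := by
    intro z hz
    obtain ⟨δ, hδ, M, hM⟩ := h z hz
    refine cauchy_AA (F := fun n => F (φ n)) hδ
      ((hφ.tendsto_atTop.eventually hM).mono fun n hn => hn.1) (fun e he => ?_)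
    obtain ⟨r, hr, hrU⟩ := Metric.isOpen_iff.1 hU z hz
    obtain ⟨j, hj⟩ := (TopologicalSpace.denseRange_denseSeq ℂ).exists_dist_lt z (lt_min he hr)
    rw [dist_comm] at hj
    exact ⟨_, hj.trans_le (min_le_left _ _), hq j (hrU (mem_ball.2 (hj.trans_le (min_le_right _ _))))⟩
  refine ⟨φ, hφ, fun w => limUnder atTop (fun n => F (φ n) w), ?_⟩
  refine tendstoLocallyUniformlyOn_of_forall_exists_nhds (fun z hz => ?_)
  obtain ⟨δ, hδ, M, hM⟩ := h z hz
  obtain ⟨r, hr, hrU⟩ := Metric.isOpen_iff.1 hU z hz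
  have hρ : 0 < min δ r := lt_min hδ hr
  refine ⟨closedBall z (min δ r / 2), mem_nhdsWithin_of_mem_nhds (closedBall_mem_nhds _ (by positivity)), ?_⟩
  refine unif_AA (S := ball z (min δ r)) (M := M) (isCompact_closedBall _ _)
    (closedBall_subset_ball (by linarith)) ?_ (fun w hw => ?_)
  · exact (hφ.tendsto_atTop.eventually hM).mono fun n hn =>
      hn.1.mono (ball_subset_ball (min_le_left _ _))
  · exact (hc w (hrU (ball_subset_ball (min_le_right _ _) hw))).tendsto_limUnder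

end Vale.Agent.P128
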