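import Vale.Agent.P128.Defs

/-! P128 C/Prim (TASK): if the gradients converge locally uniformly then the functions converge
after subtracting locally constant functions.

Plan for `prim`. Say `z ~ z'` if `n ↦ u n z - u n z'` is a Cauchy sequence (an equivalence
relation). If `closedBall z δ ⊆ U` then on this ball the gradients converge uniformly
(`tendstoLocallyUniformlyOn_iff_forall_isCompact`), and by the mean value inequality
(`Convex.norm_image_sub_le_of_norm_fderiv_le` applied to `u n - u m`)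
`|(u n w - u n z) - (u m w - u m z)| ≤ δ * sup ‖fderiv (u n) - fderiv (u m)‖`, so `w ~ z` for
all `w` in the ball, uniformly. Let `b z = Classical.epsilon (fun z' => z ~ z')`; then `z ~ b z`
and `b w = b z` when `w ~ z`. Put `c n z = u n (b z)` (locally constant on `U`) and
`v z = limUnder atTop (fun n => u n z - c n z)`. On the ball the sequence `u n - c n` is
uniformly Cauchy. For the derivative use `hasFDerivAt_of_tendstoUniformlyOnFilter` (it only needs
differentiability eventually) or shift the sequence by `N` and use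
`hasFDerivAt_of_tendstoUniformlyOn` on the open ball.
`const`: take `c, v'` from `prim` with `G = fderiv ℝ v`; `v' - v` has derivative zero on `U`, so
it is locally constant (`Convex.is_const_of_fderivWithin_eq_zero` or `IsOpen.is_const_of_fderiv_eq_zero`
on a small ball); use `c n + (v' - v)`. -/

namespace Vale.Agent.P128

open MeasureTheory Set Metric Filter Topology
open scoped ENNReal

theorem prim_loc (U : Set ℂ) (hU : IsOpen U) (u : ℕ → ℂ → ℝ) (G : ℂ → ℂ →L[ℝ] ℝ)
    (hd : ∀ C, IsCompact C → C ⊆ U → ∀ᶠ n in atTop, ∀ z ∈ C, DifferentiableAt ℝ (u n) z)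
    (hG : TendstoLocallyUniformlyOn (fun n => fderiv ℝ (u n)) G atTop U) {z : ℂ} (hz : z ∈ U) :
    ∃ δ : ℝ, 0 < δ ∧ closedBall z δ ⊆ U ∧
      UniformCauchySeqOn (fun n w => u n w - u n z) atTop (closedBall z δ) := by
  obtain ⟨δ, hδ, hs⟩ := Metric.nhds_basis_closedBall.mem_iff.1 (hU.mem_nhds hz)
  refine ⟨δ, hδ, hs, Metric.uniformCauchySeqOn_iff.2 fun ε hε => ?_⟩
  have hc := isCompact_closedBall z δ
  have h1 := ((tendstoLocallyUniformlyOn_iff_forall_isCompact hU).1 hG _ hs hc).uniformCauchySeqOn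
  obtain ⟨N, hN⟩ := Metric.uniformCauchySeqOn_iff.1 h1 (ε / (δ + 1)) (by positivity)
  obtain ⟨M, hM⟩ := eventually_atTop.1 (hd _ hc hs)
  refine ⟨max N M, fun m hm n hn w hw => ?_⟩
  have hm' := hM m (le_of_max_le_right hm)
  have hn' := hM n (le_of_max_le_right hn)
  have h2 := (convex_closedBall z δ).norm_image_sub_le_of_norm_fderiv_le (𝕜 := ℝ)
    (f := fun x => u m x - u n x) (C := ε / (δ + 1)) (fun x hx => (hm' x hx).sub (hn' x hx))
    (fun x hx => by
      rw [fderiv_fun_sub (hm' x hx) (hn' x hx), ← dist_eq_norm]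
      exact (hN m (le_of_max_le_left hm) n (le_of_max_le_left hn) x hx).le)
    (mem_closedBall_self hδ.le) hw
  have h3 : ε / (δ + 1) * ‖w - z‖ < ε := by
    rw [div_mul_eq_mul_div, div_lt_iff₀ (by positivity)]
    exact mul_lt_mul_of_pos_left ((mem_closedBall_iff_norm.1 hw).trans_lt (lt_add_one δ)) hε
  rw [dist_eq_norm, show u m w - u m z - (u n w - u n z) = u m w - u n w - (u m z - u n z) by ring]
  exact h2.trans_lt h3

theorem prim (U : Set ℂ) (hU : IsOpen U) (u : ℕ → ℂ → ℝ) (G : ℂ → ℂ →L[ℝ] ℝ)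
    (hd : ∀ C, IsCompact C → C ⊆ U → ∀ᶠ n in atTop, ∀ z ∈ C, DifferentiableAt ℝ (u n) z)
    (hG : TendstoLocallyUniformlyOn (fun n => fderiv ℝ (u n)) G atTop U) :
    ∃ (c : ℕ → ℂ → ℝ) (v : ℂ → ℝ), (∀ n, LC U (c n)) ∧
      TendstoLocallyUniformlyOn (fun n z => u n z - c n z) v atTop U ∧
      ∀ z ∈ U, HasFDerivAt v (G z) z := by
  set R : ℂ → ℂ → Prop := fun z z' => CauchySeq fun n => u n z - u n z' with hR
  have hrefl : ∀ z, R z z := fun z => by
    simp only [hR, sub_self]
    exact cauchySeq_const 0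
  have htr : ∀ {a b c}, R a b → R b c → R a c := fun {a b c} h h' => by
    have h1 := CauchySeq.add h h'
    have e : ((fun n => u n a - u n b) + fun n => u n b - u n c) = fun n => u n a - u n c := by
      funext n
      simp only [Pi.add_apply]
      ring
    rwa [e] at h1
  have hsym : ∀ {a b}, R a b → R b a := fun {a b} h => by
    have h1 := CauchySeq.neg h
    have e : (-fun n => u n a - u n b) = fun n => u n b - u n a := by
      funext n
      simp only [Pi.neg_apply]
      ring
    rwa [e] at h1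
  set b : ℂ → ℂ := fun z => Classical.epsilon (R z) with hb
  have hb1 : ∀ z, R z (b z) := fun z => Classical.epsilon_spec ⟨z, hrefl z⟩
  have hb2 : ∀ {w z}, R w z → b w = b z := fun {w z} h =>
    congrArg Classical.epsilon (funext fun x => propext ⟨htr (hsym h), htr h⟩)
  have hlim : ∀ z, Tendsto (fun n => u n z - u n (b z)) atTop
      (𝓝 (limUnder atTop fun n => u n z - u n (b z))) := fun z => (hb1 z).tendsto_limUnder
  refine ⟨fun n z => u n (b z), fun z => limUnder atTop fun n => u n z - u n (b z),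
    fun n z hz => ?_, tendstoLocallyUniformlyOn_of_forall_exists_nhds fun z hz => ?_,
    fun z hz => ?_⟩
  all_goals obtain ⟨δ, hδ, hs, hC⟩ := prim_loc U hU u G hd hG hz
  · filter_upwards [closedBall_mem_nhds z hδ] with w hw
    rw [hb2 (hC.cauchySeq hw)]
  · refine ⟨closedBall z δ, mem_nhdsWithin_of_mem_nhds (closedBall_mem_nhds z hδ),
      UniformCauchySeqOn.tendstoUniformlyOn_of_tendsto ?_ fun w _ => hlim w⟩
    refine Metric.uniformCauchySeqOn_iff.2 fun ε hε => ?_
    obtain ⟨N, hN⟩ := Metric.uniformCauchySeqOn_iff.1 hC (ε / 2) (half_pos hε)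
    obtain ⟨M, hM⟩ := Metric.cauchySeq_iff.1 (hb1 z) (ε / 2) (half_pos hε)
    refine ⟨max N M, fun m hm n hn w hw => ?_⟩
    have h1 := hN m (le_of_max_le_left hm) n (le_of_max_le_left hn) w hw
    have h2 := hM m (le_of_max_le_right hm) n (le_of_max_le_right hn)
    simp only [hb2 (hC.cauchySeq hw)]
    rw [Real.dist_eq, abs_lt] at h1 h2 ⊢
    constructor <;> linarith [h1.1, h1.2, h2.1, h2.2]
  · have hc := isCompact_closedBall z δ
    have hn := closedBall_mem_nhds z hδ
    refine hasFDerivAt_of_tendstoUniformlyOnFilter (l := atTop) (f := fun n w => u n w - u n (b z))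
      (f' := fun n => fderiv ℝ (u n)) ?_ ?_ ?_
    · exact ((tendstoLocallyUniformlyOn_iff_forall_isCompact hU).1 hG _ hs
        hc).tendstoUniformlyOnFilter.mono_right (le_principal_iff.2 hn)
    · filter_upwards [(hd _ hc hs).prod_mk (show ∀ᶠ w in 𝓝 z, w ∈ closedBall z δ from hn)] with p hp
      exact (hp.1 _ hp.2).hasFDerivAt.sub_const _
    · filter_upwards [hn] with w hw
      rw [← hb2 (hC.cauchySeq hw)]
      exact hlim w

theorem const (U : Set ℂ) (hU : IsOpen U) (u : ℕ → ℂ → ℝ) (v : ℂ → ℝ)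
    (hv : ∀ z ∈ U, DifferentiableAt ℝ v z)
    (hd : ∀ C, IsCompact C → C ⊆ U → ∀ᶠ n in atTop, ∀ z ∈ C, DifferentiableAt ℝ (u n) z)
    (hG : TendstoLocallyUniformlyOn (fun n => fderiv ℝ (u n)) (fderiv ℝ v) atTop U) :
    ∃ c : ℕ → ℂ → ℝ, (∀ n, LC U (c n)) ∧
      TendstoLocallyUniformlyOn (fun n z => u n z - c n z) v atTop U := by
  obtain ⟨c, v', hc, ht, hv'⟩ := prim U hU u _ hd hG
  have hl : LC U fun z => v' z - v z := by
    intro z hz
    obtain ⟨δ, hδ, hs⟩ := Metric.isOpen_iff.1 hU z hz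
    have h0 : ∀ w ∈ ball z δ, HasFDerivAt (fun z => v' z - v z) (0 : ℂ →L[ℝ] ℝ) w := fun w hw => by
      have h1 := (hv' w (hs hw)).sub (hv w (hs hw)).hasFDerivAt
      rwa [sub_self] at h1
    filter_upwards [ball_mem_nhds z hδ] with w hw
    exact isOpen_ball.is_const_of_fderiv_eq_zero (𝕜 := ℝ) (f := fun z => v' z - v z)
      (convex_ball z δ).isPreconnected (fun x hx => (h0 x hx).differentiableAt.differentiableWithinAt)
      (fun x hx => (h0 x hx).fderiv) hw (mem_ball_self hδ)
  refine ⟨fun n z => c n z + (v' z - v z), fun n z hz => ?_, ?_⟩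
  · filter_upwards [hc n z hz, hl z hz] with w h1 h2
    rw [h1, h2]
  · rw [Metric.tendstoLocallyUniformlyOn_iff] at ht ⊢
    intro ε hε z hz
    obtain ⟨t, h1, h2⟩ := ht ε hε z hz
    refine ⟨t, h1, h2.mono fun n hn y hy => ?_⟩
    have h3 := hn y hy
    rw [Real.dist_eq] at h3 ⊢
    rwa [show v y - (u n y - (c n y + (v' y - v y))) = v' y - (u n y - c n y) by ring]

end Vale.Agent.P128
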