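import Vale.Agent.P128.C.Kur
import Vale.Agent.P128.C.AA
import Vale.Agent.P128.C.Prim
import Vale.Agent.P128.C.Fatou

/-! P128 C/Comp0 (TASK): soft compactness.

Plan. `hol_lip`: Cauchy estimate `Complex.norm_deriv_le_of_forall_mem_sphere_norm_le` with radius
`δ/2` (`DifferentiableOn.diffContOnCl` on a slightly larger ball, or
`DiffContOnCl.mk_ball`) bounds `deriv f` by `2 M / δ` on `ball z δ`; then
`Convex.lipschitzOnWith_of_nnnorm_deriv_le`.
`comp0`: `φ₁, L` from `kuratowski K`. For `z ∈ U = Lᶜ` choose `δ` with `closedBall z (3δ) ⊆ U`;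
eventually this ball is in `Ω (φ₁ n)` and misses `K (φ₁ n)`, so by `AM0.grad_le` (radius `δ`) and
`norm_dz`, `‖dz (u (φ₁ n)) w‖ ≤ 2 / √δ` on `ball z (2δ)`, and `hol_lip` applies. `local_arzela` gives
`φ₂` and `g`. Let `Λ : ℂ →L[ℝ] (ℂ →L[ℝ] ℝ)`, `Λ a = reCLM.comp (ContinuousLinearMap.mul ℝ ℂ a)`, so
`fderiv ℝ u z = Λ (dz u z)` (`fderiv_eq_dz`); the gradients converge locally uniformly to `Λ ∘ g`
(`UniformContinuous.comp_tendstoLocallyUniformlyOn`). `prim` gives `v` with derivative `Λ (g z)`,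
so `dz v = g` on `U`; `g` is holomorphic: on a small ball use
`TendstoLocallyUniformlyOn.differentiableOn` (eventually differentiable).
Take `φ = φ₁ ∘ φ₂`; `hφ₂.tendsto_atTop.eventually` transports the eventual statements. -/

namespace Vale.Agent.P128

open MeasureTheory Set Metric Filter Topology
open scoped ENNReal NNReal

variable {c : ℝ} {Ω : ℕ → Set ℂ} {ε : ℕ → ℝ} {wk : ℕ → Prop} {u : ℕ → ℂ → ℝ} {K : ℕ → Set ℂ}
  {v : ℂ → ℝ} {L : Set ℂ}

theorem hol_lip {f : ℂ → ℂ} {z : ℂ} {δ : ℝ} {M : ℝ≥0} (hδ : 0 < δ)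
    (hf : DifferentiableOn ℂ f (ball z (2 * δ))) (hb : ∀ w ∈ ball z (2 * δ), ‖f w‖ ≤ M) :
    LipschitzOnWith (M * (2 / δ).toNNReal) f (ball z δ) := by
  refine (convex_ball z δ).lipschitzOnWith_of_nnnorm_deriv_le (𝕜 := ℂ) (fun w hw =>
    hf.differentiableAt (isOpen_ball.mem_nhds (ball_subset_ball (by linarith) hw))) fun w hw => ?_
  have sub : closedBall w (δ / 2) ⊆ ball z (2 * δ) :=
    closedBall_subset_ball' (by linarith [mem_ball.1 hw])
  have h := Complex.norm_deriv_le_of_forall_mem_sphere_norm_le (half_pos hδ)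
    (hf.diffContOnCl_ball sub) fun p hp => hb p (sub (sphere_subset_closedBall hp))
  rw [← NNReal.coe_le_coe, coe_nnnorm, NNReal.coe_mul, Real.coe_toNNReal _ (by positivity)]
  refine h.trans_eq ?_
  field_simp

theorem Comp0_ev (h : Seq c Ω ε wk u K)
    (up : ∀ C, IsCompact C → Disjoint C L → ∀ᶠ n in atTop, Disjoint C (K n)) {C : Set ℂ}
    (hC : IsCompact C) (hL : C ⊆ Lᶜ) : ∀ᶠ n in atTop, C ⊆ Ω n \ K n := by
  filter_upwards [h.ev_compact hC, up C hC (subset_compl_iff_disjoint_right.1 hL)] with n h1 h2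
  exact subset_sdiff.2 ⟨h1, h2⟩

theorem Comp0_aa (h : Seq c Ω ε wk u K) (hL : IsClosed L)
    (up : ∀ C, IsCompact C → Disjoint C L → ∀ᶠ n in atTop, Disjoint C (K n)) :
    ∃ φ : ℕ → ℕ, StrictMono φ ∧ ∃ g : ℂ → ℂ,
      TendstoLocallyUniformlyOn (fun n => dz (u (φ n))) g atTop Lᶜ := by
  refine local_arzela Lᶜ hL.isOpen_compl (fun n => dz (u n)) fun z hz => ?_
  obtain ⟨ρ, ρ0, hρ⟩ := nhds_basis_closedBall.mem_iff.1 (hL.isOpen_compl.mem_nhds hz)
  obtain ⟨δ, rfl⟩ : ∃ δ, ρ = 3 * δ := ⟨ρ / 3, by ring⟩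
  have δ0 : 0 < δ := by linarith
  obtain ⟨M, hM⟩ : ∃ M : ℝ≥0, (M : ℝ) = 2 / √δ := ⟨⟨2 / √δ, by positivity⟩, rfl⟩
  refine ⟨δ, δ0, max (M * (2 / δ).toNNReal) M, ?_⟩
  filter_upwards [Comp0_ev h up (isCompact_closedBall _ _) hρ] with n hn
  have hb : ∀ w ∈ ball z (2 * δ), ‖dz (u n) w‖ ≤ M := fun w hw => by
    have sub : closedBall w δ ⊆ Ω n \ K n :=
      (closedBall_subset_closedBall' (by linarith [mem_ball.1 hw])).trans hn
    rw [(norm_dz _ _).1, hM]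
    exact ((h.am n).grad_le δ0 (sub.trans sdiff_subset)
      (subset_sdiff.1 (ball_subset_closedBall.trans sub)).2).2
  refine ⟨(hol_lip δ0 ((h.am n).holo.mono ((ball_subset_closedBall.trans
    (closedBall_subset_closedBall (by linarith))).trans hn)) hb).weaken (le_max_left _ _),
    fun w hw => (hb w (ball_subset_ball (by linarith) hw)).trans ?_⟩
  exact NNReal.coe_le_coe.2 (le_max_right _ _)

theorem Comp0_lam : ∃ Λ : ℂ →L[ℝ] ℂ →L[ℝ] ℝ, ∀ a b, Λ a b = (a * b).re :=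
  ⟨(ContinuousLinearMap.compL ℝ ℂ ℂ ℝ Complex.reCLM).comp (ContinuousLinearMap.mul ℝ ℂ),
    fun _ _ => rfl⟩

theorem Comp0_lim (h : Seq c Ω ε wk u K) (hL : IsClosed L)
    (low : ∀ z ∈ L, ∀ η : ℝ, 0 < η → ∀ᶠ n in atTop, (K n ∩ ball z η).Nonempty)
    (up : ∀ C, IsCompact C → Disjoint C L → ∀ᶠ n in atTop, Disjoint C (K n)) {g : ℂ → ℂ}
    (hg : TendstoLocallyUniformlyOn (fun n => dz (u n)) g atTop Lᶜ) : ∃ v, Conv0 u K v L := by
  obtain ⟨Λ, hΛ⟩ := Comp0_lam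
  have hG : TendstoLocallyUniformlyOn (fun n => fderiv ℝ (u n)) (Λ ∘ g) atTop Lᶜ :=
    (Λ.uniformContinuous.comp_tendstoLocallyUniformlyOn hg).congr fun n z _ =>
      ContinuousLinearMap.ext fun b => (hΛ _ b).trans (fderiv_eq_dz _ _ _).symm
  obtain ⟨-, v, -, -, hv⟩ := prim Lᶜ hL.isOpen_compl u _ (fun C hC hCL =>
    (Comp0_ev h up hC hCL).mono fun n hn z hz => (h.am n).diff z (hn hz)) hG
  have e : EqOn (dz v) g Lᶜ := fun z hz => by
    rw [dz, (hv z hz).fderiv, Function.comp_apply, hΛ, hΛ]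
    apply Complex.ext <;> simp
  refine ⟨v, hL, low, up, fun z hz => (hv z hz).differentiableAt, fun z hz => ?_,
    hG.congr_right fun z hz => (hv z hz).fderiv.symm⟩
  obtain ⟨ρ, ρ0, hρ⟩ := nhds_basis_closedBall.mem_iff.1 (hL.isOpen_compl.mem_nhds hz)
  have d := (hg.mono (ball_subset_closedBall.trans hρ)).differentiableOn
    ((Comp0_ev h up (isCompact_closedBall _ _) hρ).mono fun n hn =>
      (h.am n).holo.mono (ball_subset_closedBall.trans hn)) isOpen_ball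
  exact (d.differentiableAt (ball_mem_nhds z ρ0)).differentiableWithinAt.congr e (e hz)

theorem comp0 (h : Seq c Ω ε wk u K) :
    ∃ φ : ℕ → ℕ, StrictMono φ ∧ ∃ (v : ℂ → ℝ) (L : Set ℂ), Conv0 (u ∘ φ) (K ∘ φ) v L := by
  obtain ⟨φ, hφ, L, hL, low, up⟩ := kuratowski K
  obtain ⟨ψ, hψ, g, hg⟩ := Comp0_aa (h.subseq hφ) hL up
  obtain ⟨v, hv⟩ := Comp0_lim (h.subseq (hφ.comp hψ)) hL
    (fun z hz η hη => hψ.tendsto_atTop.eventually (low z hz η hη))
    (fun C hC hd => hψ.tendsto_atTop.eventually (up C hC hd)) hg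
  exact ⟨φ ∘ ψ, hφ.comp hψ, v, L, hv⟩

end Vale.Agent.P128
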