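import Vale.Agent.P128.C.LimA

/-! P128 C/LimB (TASK): convergence of energies and lengths, density of the limit.

Notation: `h0 = AM0.of_min .. (lim_min hs h) : AM0 univ 0 True v L`, so `AM0.upper_real` and
`AM0.mono_real` translate everything for `v, L` (and eventually for `u n, K n`, by
`Seq.ev_ball`) to real numbers.
* `lim_D_lsc`: from `Conv0.dir_lsc` on `ball y r` (`eventually_lt_of_lt_liminf`).
* `lim_len_lsc`: from `len_lsc` on `ball y r`.
* `lim_total`: `glue` with `comp_self` at radius `r/2 < r`.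
* `lim_usc`: `lim_total` minus `lim_D_lsc`.
* `lim_D`: lower bound `lim_D_lsc`; upper bound: by continuity of `D v L y` at `r` pick
  `r' > r` with `D v L y s ≤ D v L y r + η/3` on `Icc r r'`, then `ρ ∈ Ioo r r'` from `null_sphere`, so
  that `lenc L y ρ = len L y ρ`; eventually
  `D n r ≤ D n ρ ≤ D v ρ + lenc L ρ + η/3 - len (K n) ρ ≤ D v ρ + 2η/3`.
* `lim_dens`: for `0 < η < r/2`, eventually there is `y' ∈ K n ∩ ball y η` with
  `closedBall y' (r - 2η) ⊆ closedBall y (r - η) ⊆ Ω n`, so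
  `c (r - 2η) ≤ lenc (K n) y (r - η) ≤ lenc L y (r - η) + η ≤ len L y r + η`; let `η → 0`. -/

namespace Vale.Agent.P128

open MeasureTheory Set Metric Filter Topology
open scoped ENNReal NNReal

variable {c : ℝ} {Ω : ℕ → Set ℂ} {ε : ℕ → ℝ} {wk : ℕ → Prop} {u : ℕ → ℂ → ℝ} {K : ℕ → Set ℂ}
  {v : ℂ → ℝ} {L : Set ℂ}

theorem lim_am0 (hs : Seq c Ω ε wk u K) (h : Conv0 u K v L) : AM0 univ 0 True v L :=
  AM0.of_min h.closed h.diff h.holo (fun y r w L' hr hc => lim_min hs h y r w L' hr hc)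

theorem LimB_ev {a η : ℝ} {f : ℕ → ℝ} {g : ℕ → ℝ≥0∞} (hη : 0 < η)
    (h : ENNReal.ofReal a ≤ liminf g atTop)
    (hg : ∀ᶠ n in atTop, g n = ENNReal.ofReal (f n) ∧ 0 ≤ f n) : ∀ᶠ n in atTop, a - η ≤ f n := by
  rcases le_total (a - η) 0 with h0 | h0
  · exact hg.mono fun n hn => h0.trans hn.2
  have h1 : ENNReal.ofReal (a - η) < ENNReal.ofReal a :=
    (ENNReal.ofReal_lt_ofReal_iff_of_nonneg h0).2 (sub_lt_self a hη)
  filter_upwards [hg, eventually_lt_of_lt_liminf (h1.trans_le h)] with n h2 h3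
  rw [h2.1] at h3
  exact ((ENNReal.ofReal_lt_ofReal_iff_of_nonneg h0).1 h3).le

theorem lim_D_lsc (hs : Seq c Ω ε wk u K) (h : Conv0 u K v L) (y : ℂ) {r η : ℝ} (hr : 0 < r)
    (hη : 0 < η) : ∀ᶠ n in atTop, D v L y r - η ≤ D (u n) (K n) y r := by
  refine LimB_ev hη (((lim_am0 hs h).upper_real hr (subset_univ _)).2.1.ge.trans
    (h.dir_lsc (fun n => (hs.am n).closed) measurableSet_ball)) ?_
  filter_upwards [hs.ev_ball y r] with n hn
  have U := (hs.am n).upper_real hr hn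
  exact ⟨U.2.1, U.2.2.2.2.2.1⟩

theorem lim_len_lsc (hs : Seq c Ω ε wk u K) (h : Conv0 u K v L) (y : ℂ) {r η : ℝ} (hr : 0 < r)
    (hη : 0 < η) : ∀ᶠ n in atTop, len L y r - η ≤ len (K n) y r := by
  refine LimB_ev hη (((lim_am0 hs h).upper_real hr (subset_univ _)).2.2.2.1.ge.trans
    (len_lsc hs h isOpen_ball)) ?_
  filter_upwards [hs.ev_ball y r] with n hn
  have U := (hs.am n).upper_real hr hn
  exact ⟨U.2.2.2.1, U.2.2.2.2.2.2.1⟩

theorem lim_total (hs : Seq c Ω ε wk u K) (h : Conv0 u K v L) (y : ℂ) {r η : ℝ} (hr : 0 < r)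
    (hη : 0 < η) : ∀ᶠ n in atTop,
      D (u n) (K n) y r + lenc (K n) y r ≤ D v L y r + lenc L y r + η := by
  obtain ⟨-, -, -, -, e, a1, a2, a3, -⟩ := (lim_am0 hs h).upper_real (y := y) hr (subset_univ _)
  filter_upwards [hs.ev_ball y r,
    glue hs h (half_pos hr) (half_lt_self hr) (comp_self h y (r / 2)) hη] with n hn h1
  rw [((hs.am n).upper_real hr hn).2.2.2.2.1, e, ← ENNReal.ofReal_add (by linarith) hη.le] at h1
  exact (ENNReal.ofReal_le_ofReal_iff (by linarith)).1 h1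

theorem lim_usc (hs : Seq c Ω ε wk u K) (h : Conv0 u K v L) (y : ℂ) {r η : ℝ} (hr : 0 < r)
    (hη : 0 < η) : ∀ᶠ n in atTop, lenc (K n) y r ≤ lenc L y r + η := by
  filter_upwards [lim_total hs h y hr (half_pos hη), lim_D_lsc hs h y hr (half_pos hη)]
    with n h1 h2
  linarith

theorem LimB_null {y : ℂ} {ρ : ℝ} (h : μH[1] (L ∩ sphere y ρ) = 0) : lenc L y ρ = len L y ρ := by
  rw [lenc, len, ← ball_union_sphere, inter_union_distrib_left]
  congr 1
  refine le_antisymm ((measure_union_le _ _).trans_eq ?_) (measure_mono subset_union_left)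
  rw [h, add_zero]

theorem lim_D (hs : Seq c Ω ε wk u K) (h : Conv0 u K v L) (y : ℂ) {r : ℝ} (hr : 0 < r) :
    Tendsto (fun n => D (u n) (K n) y r) atTop (𝓝 (D v L y r)) := by
  refine Metric.tendsto_nhds.2 fun η hη => ?_
  have η4 : 0 < η / 4 := by linarith
  have hc : ContinuousAt (D v L y) r :=
    ((lim_am0 hs h).mono_real (r := r + 1) (by linarith) (subset_univ _)).2.2.continuousAt
      (Icc_mem_nhds hr (lt_add_one r))
  obtain ⟨δ, δ0, hδ⟩ := Metric.continuousAt_iff.1 hc _ η4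
  obtain ⟨ρ, ⟨h1, h2⟩, h3⟩ := null_sphere h.closed y (lt_add_of_pos_right r δ0)
    (lim_en_fin hs h y (by linarith)).2.1
  have ρ0 := hr.trans h1
  have h4 := hδ (x := ρ) (by rw [Real.dist_eq, abs_of_pos (by linarith)]; linarith)
  rw [Real.dist_eq, abs_lt] at h4
  filter_upwards [lim_D_lsc hs h y hr η4, lim_total hs h y ρ0 η4, lim_len_lsc hs h y ρ0 η4,
    hs.ev_ball y ρ] with n a1 a2 a3 a4
  have a5 := (((hs.am n).mono_real ρ0 a4).1 y r (ball_subset_ball h1.le)).1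
  have a6 := ((hs.am n).upper_real ρ0 a4).2.2.2.2.2.2.2.1
  rw [LimB_null h3] at a2
  rw [Real.dist_eq, abs_lt]
  constructor <;> linarith [h4.2]

theorem lim_dens (hs : Seq c Ω ε wk u K) (h : Conv0 u K v L) {y : ℂ} (hy : y ∈ L) {r : ℝ}
    (hr : 0 < r) : ENNReal.ofReal (c * r) ≤ μH[1] (L ∩ ball y r) := by
  have h0 := lim_am0 hs h
  rw [(h0.upper_real hr (subset_univ _)).2.2.2.1]
  refine ENNReal.ofReal_le_ofReal (le_of_forall_pos_le_add fun e he => ?_)
  obtain ⟨η, η0, η1, η2⟩ : ∃ η : ℝ, 0 < η ∧ η ≤ e / 3 ∧ η ≤ r / 4 :=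
    ⟨min (e / 3) (r / 4), by positivity, min_le_left _ _, min_le_right _ _⟩
  have r1 : 0 < r - η := by linarith
  obtain ⟨n, ⟨y', k1, k2⟩, k3, k4⟩ := ((h.low y hy η η0).and ((hs.ev_ball y (r - η)).and
    (lim_usc hs h y r1 η0))).exists
  have sub : closedBall y' (r - 2 * η) ⊆ closedBall y (r - η) :=
    closedBall_subset_closedBall' (by linarith [mem_ball.1 k2])
  have U := (hs.am n).upper_real r1 k3
  have d := ((hs.am n).dens y' k1 (r - 2 * η) (by linarith) (sub.trans k3)).trans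
    (measure_mono (inter_subset_inter_right _ (ball_subset_closedBall.trans sub)))
  rw [U.2.2.1, ENNReal.ofReal_le_ofReal_iff (U.2.2.2.2.2.2.1.trans U.2.2.2.2.2.2.2.1)] at d
  have m := (h0.mono_real hr (subset_univ _)).2.1 y (r - η) (closedBall_subset_ball (by linarith))
  have := mul_le_mul_of_nonneg_right (hs.am n).cle η0.le
  linarith

end Vale.Agent.P128
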