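import Vale.Agent.P128.TA2.Main

/-! P128 C/Osc (TASK): a circle that meets `K` in at most one point.

Plan. Choose `θ₀` with `K ∩ sphere y s ⊆ {circleMap y s θ₀}` (`range_circleMap`). Every point of
the circle is `circleMap y s θ` with `θ ∈ Ico θ₀ (θ₀ + 2π)` (`toIcoMod`, `periodic_circleMap`), and
`circleMap y s` is injective on that interval (`injOn_circleMap_of_abs_sub_le'` or
`eq_of_circleMap_eq`). So `sphere y s \ K` is the image of `Ioo θ₀ (θ₀ + 2π)` (if the point is in
`K`) or of `Ico θ₀ (θ₀ + 2π)` (if not), which gives preconnectedness. For `α ≤ β` in this interval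
`J` the function `θ ↦ u (circleMap y s θ)` is `C¹` on `Icc α β` with derivative bounded by
`s * ‖fderiv ℝ u (circleMap y s θ)‖` (`hasDerivAt_circleMap`), so by
`intervalIntegral.integral_eq_sub_of_hasDerivAt` and `ofReal_integral_eq_lintegral_ofReal`
`ofReal |u z - u w| ≤ ∫⁻ θ in Ioc α β, F θ` with
`F θ = indicator {θ | circleMap y s θ ∉ K} (ofReal s * ‖fderiv ℝ u (circleMap y s θ)‖ₑ)`, which is
`2π`-periodic. A set integral of a periodic function over `Ioc θ₀ (θ₀ + 2π)` equals the one over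
`Ioc (-π) π`: use `AddCircle.lintegral_preimage` twice with `Function.Periodic.lift`. -/

namespace Vale.Agent.P128

open MeasureTheory Set Metric Filter Topology
open scoped ENNReal NNReal

theorem lintegral_periodic {F : ℝ → ℝ≥0∞} (hF : Function.Periodic F (2 * Real.pi)) (a : ℝ) :
    ∫⁻ θ in Ioc a (a + 2 * Real.pi), F θ = ∫⁻ θ in Ioc (-Real.pi) Real.pi, F θ := by
  have : Fact (0 < 2 * Real.pi) := ⟨Real.two_pi_pos⟩
  have h1 := AddCircle.lintegral_preimage (2 * Real.pi) a hF.lift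
  have h2 := AddCircle.lintegral_preimage (2 * Real.pi) (-Real.pi) hF.lift
  rw [show -Real.pi + 2 * Real.pi = Real.pi by ring] at h2
  exact h1.trans h2.symm

theorem osc_circle {K : Set ℂ} (hK : IsClosed K) {u : ℂ → ℝ} {y : ℂ} {s G : ℝ} (hs : 0 < s)
    (hd : ∀ z ∈ sphere y s \ K, DifferentiableAt ℝ u z)
    (hc : ContinuousOn (fderiv ℝ u) (sphere y s \ K)) (h1 : (K ∩ sphere y s).Subsingleton)
    (hG0 : 0 ≤ G)
    (hG : ∫⁻ θ in offK K y s, ENNReal.ofReal s * ‖fderiv ℝ u (circleMap y s θ)‖ₑ ≤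
      ENNReal.ofReal G) :
    IsPreconnected (sphere y s \ K) ∧
      ∀ z ∈ sphere y s \ K, ∀ w ∈ sphere y s \ K, |u z - u w| ≤ G := by
  have hsph : ∀ θ, circleMap y s θ ∈ sphere y s := fun θ => circleMap_mem_sphere y hs.le θ
  have hsurj : ∀ z ∈ sphere y s, ∃ θ, circleMap y s θ = z := by
    intro z hz
    rw [← abs_of_pos hs, ← range_circleMap] at hz
    exact hz
  obtain ⟨a, ha⟩ : ∃ a, ∀ z ∈ K ∩ sphere y s, z = circleMap y s a := by
    rcases h1.eq_empty_or_singleton with h | ⟨z, h⟩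
    · exact ⟨0, fun z hz => by simp [h] at hz⟩
    · obtain ⟨a, ha⟩ := hsurj z (h.symm.subset rfl).2
      exact ⟨a, fun w hw => (h.subset hw).trans ha.symm⟩
  set J : Set ℝ := {θ | θ ∈ Ico a (a + 2 * Real.pi) ∧ circleMap y s θ ∉ K} with hJ
  have hoc : ∀ α ∈ J, ∀ β ∈ J, Icc α β ⊆ J := by
    intro α hα β hβ θ hθ
    have hm : θ ∈ Ico a (a + 2 * Real.pi) := ⟨hα.1.1.trans hθ.1, hθ.2.trans_lt hβ.1.2⟩
    refine ⟨hm, fun hk => hα.2 ?_⟩
    have e := injOn_circleMap_of_abs_sub_le' (c := y) hs.ne' (by linarith) hm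
      ⟨le_rfl, by linarith [Real.two_pi_pos]⟩ (ha _ ⟨hk, hsph θ⟩)
    rwa [le_antisymm hθ.1 (e.trans_le hα.1.1)]
  have him : ∀ z ∈ sphere y s \ K, ∃ θ ∈ J, circleMap y s θ = z := by
    intro z hz
    obtain ⟨θ, rfl⟩ := hsurj z hz.1
    have e : circleMap y s (toIcoMod Real.two_pi_pos a θ) = circleMap y s θ :=
      (periodic_circleMap y s).sub_zsmul_eq _
    exact ⟨_, ⟨toIcoMod_mem_Ico _ a θ, e ▸ hz.2⟩, e⟩
  have hmaps : MapsTo (circleMap y s) J (sphere y s \ K) := fun θ hθ => ⟨hsph θ, hθ.2⟩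
  have hm : MeasurableSet {θ | circleMap y s θ ∉ K} :=
    (hK.isOpen_compl.preimage (continuous_circleMap y s)).measurableSet
  set F : ℝ → ℝ≥0∞ := {θ | circleMap y s θ ∉ K}.indicator
    fun θ => ENNReal.ofReal s * ‖fderiv ℝ u (circleMap y s θ)‖ₑ with hF
  have hper : Function.Periodic F (2 * Real.pi) := fun θ => by
    have e : ∀ θ, F θ = Kᶜ.indicator (fun z => ENNReal.ofReal s * ‖fderiv ℝ u z‖ₑ)
      (circleMap y s θ) := fun _ => rfl
    rw [e, e, periodic_circleMap y s θ]
  have hFG : ∫⁻ θ in Ioc a (a + 2 * Real.pi), F θ ≤ ENNReal.ofReal G := by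
    rw [lintegral_periodic hper, hF, lintegral_indicator hm, Measure.restrict_restrict hm,
      inter_comm]
    exact hG
  have key : ∀ α ∈ J, ∀ β ∈ J, α ≤ β → |u (circleMap y s β) - u (circleMap y s α)| ≤ G := by
    intro α hα β hβ hab
    have hsub := hoc α hα β hβ
    have hder : ∀ θ ∈ uIcc α β, HasDerivAt (fun θ => u (circleMap y s θ))
        (fderiv ℝ u (circleMap y s θ) (circleMap 0 s θ * Complex.I)) θ := by
      intro θ hθ
      rw [uIcc_of_le hab] at hθ
      exact (hd _ (hmaps (hsub hθ))).hasFDerivAt.comp_hasDerivAt θ (hasDerivAt_circleMap y s θ)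
    have hcont : ContinuousOn (fun θ => fderiv ℝ u (circleMap y s θ) (circleMap 0 s θ * Complex.I))
        (uIcc α β) := by
      rw [uIcc_of_le hab]
      exact (hc.comp (continuous_circleMap y s).continuousOn (hmaps.mono_left hsub)).clm_apply
        ((continuous_circleMap 0 s).mul continuous_const).continuousOn
    rw [← intervalIntegral.integral_eq_sub_of_hasDerivAt hder hcont.intervalIntegrable,
      intervalIntegral.integral_of_le hab, ← Real.norm_eq_abs,
      ← ENNReal.ofReal_le_ofReal_iff hG0, ofReal_norm]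
    refine (enorm_integral_le_lintegral_enorm _).trans (le_trans ?_
      ((lintegral_mono_set (Ioc_subset_Ioc hα.1.1 hβ.1.2.le)).trans hFG))
    refine setLIntegral_mono' measurableSet_Ioc fun θ hθ => ?_
    rw [hF, indicator_of_mem (show θ ∈ {θ | circleMap y s θ ∉ K} from
      (hsub (Ioc_subset_Icc_self hθ)).2), ← ofReal_norm, ← ofReal_norm,
      ← ENNReal.ofReal_mul hs.le]
    refine ENNReal.ofReal_le_ofReal ((ContinuousLinearMap.le_opNorm _ _).trans (le_of_eq ?_))
    rw [norm_mul, Complex.norm_I, mul_one, norm_circleMap_zero, abs_of_pos hs, mul_comm]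
  refine ⟨?_, fun z hz w hw => ?_⟩
  · have e : sphere y s \ K = circleMap y s '' J := Subset.antisymm him hmaps.image_subset
    rw [e]
    exact (OrdConnected.isPreconnected ⟨hoc⟩).image _ (continuous_circleMap y s).continuousOn
  · obtain ⟨α, hα, rfl⟩ := him z hz
    obtain ⟨β, hβ, rfl⟩ := him w hw
    rcases le_total α β with h | h
    · rw [abs_sub_comm]
      exact key α hα β hβ h
    · exact key β hβ α hα h

end Vale.Agent.P128
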