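import Vale.Agent.P128.C.Trunc
import Vale.Agent.P128.C.Osc

/-! P128 C/Conc (TASK): the concentration lemma. If the gradient is small in `L¹` in a ball centred
on `K`, then the length of `K` in the ball is almost the diameter.

Plan for `conc_one` (one radius). If `K ∩ sphere y s` had at most one point, `osc_circle` (with
`smooth_of_holo` for the continuity of the gradient) and `AM0.trunc` (with `a = u z₀` for a point
`z₀` of `sphere y s \ K`, any `a` if there is none) and `h.dens` give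
`c s ≤ 2 Λ σ s + 4 π G^2 / σ + ε s √s < c s`.
Plan for `conc`. We may assume `δ ≤ 1`. Put `d = δ/6`, `Λ = 16 / d^2`, `σ = c / (8 Λ) ≤ 1/2`,
`κ = √(c σ d / (16 π))`, `η = min (c/4) (κ d)`, `G = κ √t`. Let `ν = (enM u K).restrict (closedBall y t)`
(finite, `AM0.upper`, `En_eq_enM`). Bad radii in `Ioo 0 t`: `B1 = Ioc 0 (d t)`;
`B2 = {s | ofReal (Λ σ d t) ≤ ν (closedBall y s \ ball y ((1-σ) s))}`, of measure at most
`2 σ t * 8 t / (Λ σ d t) = d t` by `annulus_avg` and `mul_meas_ge_le_lintegral`;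
`B3 = {s | ofReal G ≤ g s}` with `g s` the circle integral of the gradient, of measure at most
`η t √t / G ≤ d t` by `polar_gen` applied to `indicator Kᶜ (‖fderiv ℝ u ·‖ₑ)` (`measurable_fderiv`).
For the other radii `conc_one` gives `2 ≤ encard (K ∩ sphere y s)` (`Set.encard_le_one_iff_subsingleton`,
`Set.one_lt_encard_iff_nontrivial`). By `eilenberg_sphere` with `I = Ioo 0 t`,
`2 * volume {s ∈ Ioo 0 t | 2 ≤ encard} ≤ μH[1] (K ∩ ball y t)`, and
`t ≤ 3 d t + volume {s ∈ Ioo 0 t | 2 ≤ encard}` by subadditivity. -/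

namespace Vale.Agent.P128

open MeasureTheory Set Metric Filter Topology
open scoped ENNReal NNReal

theorem conc_one {Ω : Set ℂ} {ε c : ℝ} {wk : Prop} {u : ℂ → ℝ} {K : Set ℂ}
    (h : AM Ω ε wk c u K) {y : ℂ} (hy : y ∈ K) {s σ G Λ : ℝ} (hs : 0 < s) (hσ : 0 < σ)
    (hσ1 : σ < 1) (hB : closedBall y s ⊆ Ω) (hG0 : 0 ≤ G) (hΛ : 0 ≤ Λ)
    (hG : ∫⁻ θ in offK K y s, ENNReal.ofReal s * ‖fderiv ℝ u (circleMap y s θ)‖ₑ ≤
      ENNReal.ofReal G)
    (hA : En u K (closedBall y s \ ball y ((1 - σ) * s)) ≤ ENNReal.ofReal (Λ * σ * s))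
    (hsm : 2 * (Λ * σ * s) + 4 * Real.pi * G ^ 2 / σ + ε * s * √s < c * s) :
    (K ∩ sphere y s).Nontrivial := by
  by_contra hn
  have hsub : sphere y s \ K ⊆ Ω \ K := fun z hz => ⟨hB (sphere_subset_closedBall hz.1), hz.2⟩
  have hsm' := smooth_of_holo (h.isOpen.sdiff h.closed) h.diff h.holo
  obtain ⟨hc, ho⟩ := osc_circle h.closed hs (fun z hz => h.diff z (hsub hz))
    (hsm'.2.2.1.mono hsub) (not_nontrivial_iff.1 hn) hG0 hG
  obtain ⟨a, ha⟩ : ∃ a, ∀ z ∈ sphere y s \ K, |u z - a| ≤ G := by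
    rcases (sphere y s \ K).eq_empty_or_nonempty with e | ⟨w, hw⟩
    · exact ⟨0, fun z hz => absurd (e ▸ hz) (notMem_empty z)⟩
    · exact ⟨u w, fun z hz => ho z hz w hw⟩
  have h1 := h.toAM0.trunc hs hσ hσ1 hB hc hG0 ha
  have h2 : ENNReal.ofReal (c * s) ≤ En u K (closedBall y s) :=
    (h.dens y hy s hs hB).trans ((measure_mono (inter_subset_inter_right _
      ball_subset_closedBall)).trans le_add_self)
  have e1 : 0 ≤ Λ * σ * s := by positivity
  have e2 : 0 ≤ 4 * Real.pi * G ^ 2 / σ := by positivity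
  have e3 : 0 ≤ ε * s * √s := by have := h.eps; positivity
  have h3 : ENNReal.ofReal (c * s) ≤
      ENNReal.ofReal (2 * (Λ * σ * s) + 4 * Real.pi * G ^ 2 / σ + ε * s * √s) := by
    rw [ENNReal.ofReal_add (by positivity) e3, ENNReal.ofReal_add (by positivity) e2,
      ENNReal.ofReal_mul zero_le_two, ENNReal.ofReal_ofNat]
    refine h2.trans (h1.trans ?_)
    gcongr
  exact absurd ((ENNReal.ofReal_le_ofReal_iff (by positivity)).1 h3) (not_le.2 hsm)

theorem Conc_markov {μ : Measure ℝ} {f : ℝ → ℝ≥0∞} (hf : Measurable f) {a b : ℝ} (ha : 0 < a)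
    (h : ∫⁻ s, f s ∂μ ≤ ENNReal.ofReal (a * b)) :
    μ {s | ENNReal.ofReal a ≤ f s} ≤ ENNReal.ofReal b := by
  have h1 := (mul_meas_ge_le_lintegral hf (ENNReal.ofReal a)).trans h
  rw [ENNReal.ofReal_mul ha.le] at h1
  exact (ENNReal.mul_le_mul_iff_right (ENNReal.ofReal_pos.2 ha).ne' ENNReal.ofReal_ne_top).1 h1

theorem conc {c δ : ℝ} (hc : 0 < c) (hc1 : c ≤ 1) (hδ : 0 < δ) : ∃ η : ℝ, 0 < η ∧
    ∀ (Ω : Set ℂ) (ε : ℝ) (wk : Prop) (u : ℂ → ℝ) (K : Set ℂ), AM Ω ε wk c u K →
    ∀ y ∈ K, ∀ t : ℝ, 0 < t → closedBall y t ⊆ Ω → ε * √t ≤ η →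
      (∫⁻ z in ball y t \ K, ‖fderiv ℝ u z‖ₑ) ≤ ENNReal.ofReal (η * t * √t) →
      ENNReal.ofReal ((2 - δ) * t) ≤ μH[1] (K ∩ ball y t) := by
  obtain ⟨d, d0, d1, dδ⟩ : ∃ d : ℝ, 0 < d ∧ d ≤ 1 ∧ 6 * d ≤ δ :=
    ⟨min 1 (δ / 6), lt_min one_pos (by linarith), min_le_left _ _,
      by linarith [min_le_right 1 (δ / 6)]⟩
  obtain ⟨σ, hσ⟩ : ∃ σ : ℝ, σ = c * d ^ 2 / 128 := ⟨_, rfl⟩
  have σ0 : 0 < σ := by rw [hσ]; positivity
  have σ1 : σ ≤ 1 / 2 := by
    have : c * d ^ 2 ≤ 1 := mul_le_one₀ hc1 (by positivity) (pow_le_one₀ d0.le d1)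
    rw [hσ]
    linarith
  obtain ⟨κ, κ0, hκ⟩ : ∃ κ : ℝ, 0 < κ ∧ κ ^ 2 = c * σ * d / (16 * Real.pi) :=
    ⟨√(c * σ * d / (16 * Real.pi)), by positivity, Real.sq_sqrt (by positivity)⟩
  refine ⟨min (c / 4) (κ * d), lt_min (by positivity) (by positivity),
    fun Ω ε wk u K h y hy t ht hB hε hg => ?_⟩
  have hup := h.toAM0.upper ht hB
  rw [En_eq_enM u K measurableSet_closedBall] at hup
  haveI : IsFiniteMeasure ((enM u K).restrict (closedBall y t)) :=
    ⟨by rw [Measure.restrict_apply_univ]; exact hup.trans_lt ENNReal.ofReal_lt_top⟩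
  obtain ⟨m2, i2⟩ := annulus_avg ((enM u K).restrict (closedBall y t)) y ht σ0 σ1
  have b2 := Conc_markov (μ := volume.restrict (Ioo 0 t)) m2 (a := c / 8 * (d * t)) (b := d * t)
    (by positivity) (by
      refine i2.trans ?_
      rw [Measure.restrict_apply_self]
      refine (mul_le_mul_right hup _).trans (le_of_eq ?_)
      rw [← ENNReal.ofReal_mul (by positivity), hσ]
      congr 1
      ring)
  have hF : Measurable (Kᶜ.indicator fun z => ‖fderiv ℝ u z‖ₑ) :=
    (measurable_fderiv ℝ u).enorm.indicator h.closed.measurableSet.compl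
  obtain ⟨m3, i3⟩ := polar_gen hF y
  have st : 0 < √t := Real.sqrt_pos.2 ht
  have b3 := Conc_markov (μ := volume.restrict (Ioo 0 t)) m3 (a := κ * √t) (b := d * t)
    (by positivity) (by
      rw [← i3 _ measurableSet_Ioo Ioo_subset_Ioi_self,
        setLIntegral_indicator h.closed.measurableSet.compl]
      refine (lintegral_mono_set fun z hz => ?_).trans (hg.trans (ENNReal.ofReal_le_ofReal ?_))
      · exact ⟨hz.2.2, hz.1⟩
      · have := mul_le_mul_of_nonneg_right (min_le_right (c / 4) (κ * d))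
          (show 0 ≤ t * √t by positivity)
        linarith)
  obtain ⟨m4, i4⟩ := eilenberg_sphere h.closed y
  have b4 := (mul_meas_ge_le_lintegral (μ := volume.restrict (Ioo 0 t)) m4 2).trans
    ((i4 _ measurableSet_Ioo).trans (measure_mono
      (inter_subset_inter_right K (show _ ⊆ ball y t from fun z hz => hz.2))))
  have b1 : volume.restrict (Ioo 0 t) (Ioc 0 (d * t)) ≤ ENNReal.ofReal (d * t) :=
    (Measure.restrict_apply_le _ _).trans (by rw [Real.volume_Ioc, sub_zero])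
  have cov : Ioo 0 t ⊆ Ioc 0 (d * t) ∪ {s | ENNReal.ofReal (c / 8 * (d * t)) ≤
      (enM u K).restrict (closedBall y t) (closedBall y s \ ball y ((1 - σ) * s))} ∪
      {s | ENNReal.ofReal (κ * √t) ≤ ∫⁻ θ in Ioc (-Real.pi) Real.pi, ENNReal.ofReal s *
        (Kᶜ.indicator fun z => ‖fderiv ℝ u z‖ₑ) (circleMap y s θ)} ∪
      {s | 2 ≤ ((K ∩ sphere y s).encard : ℝ≥0∞)} := by
    intro s hs
    by_contra hn
    simp only [mem_union, not_or, mem_setOf_eq, mem_Ioc, not_and, not_le] at hn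
    obtain ⟨⟨⟨n1, n2⟩, n3⟩, n4⟩ := hn
    replace n1 := n1 hs.1
    have hBs : closedBall y s ⊆ closedBall y t := closedBall_subset_closedBall hs.2.le
    have hm : MeasurableSet (closedBall y s \ ball y ((1 - σ) * s)) :=
      measurableSet_closedBall.diff measurableSet_ball
    rw [Measure.restrict_apply hm, inter_eq_left.2 (diff_subset.trans hBs), ← En_eq_enM u K hm]
      at n2
    have e1 : c / (8 * σ) * σ * s = c / 8 * s := by field_simp
    have key := conc_one h hy (Λ := c / (8 * σ)) (G := κ * √t) hs.1 σ0 (by linarith)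
      (hBs.trans hB) (by positivity) (by positivity) (by
        refine le_trans ?_ n3.le
        have hO : MeasurableSet (offK K y s) := measurableSet_Ioc.inter
          (h.closed.isOpen_compl.preimage (continuous_circleMap y s)).measurableSet
        refine le_trans (setLIntegral_mono' hO fun θ hθ => ?_)
          (lintegral_mono_set fun θ hθ => hθ.1)
        rw [indicator_of_mem (show circleMap y s θ ∈ Kᶜ from hθ.2)])
      (n2.le.trans (ENNReal.ofReal_le_ofReal (by
        rw [e1]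
        exact mul_le_mul_of_nonneg_left n1.le (by positivity))))
      (by
        have e2 : 4 * Real.pi * (κ * √t) ^ 2 / σ = c / 4 * (d * t) := by
          rw [mul_pow, hκ, Real.sq_sqrt ht.le]
          field_simp
          ring
        have e3 : ε * √s ≤ c / 4 := (mul_le_mul_of_nonneg_left (Real.sqrt_le_sqrt hs.2.le)
          h.eps).trans (hε.trans (min_le_left _ _))
        rw [e1, e2]
        nlinarith [mul_le_mul_of_nonneg_right e3 hs.1.le, mul_pos hc hs.1,
          mul_lt_mul_of_pos_left n1 hc])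
    have k2 : (2 : ℕ∞) ≤ (K ∩ sphere y s).encard :=
      Order.add_one_le_of_lt (one_lt_encard_iff_nontrivial.2 key)
    exact absurd (by exact_mod_cast k2) (not_le.2 n4)
  have tot := measure_mono (μ := volume.restrict (Ioo 0 t)) cov
  rw [Measure.restrict_apply_self, Real.volume_Ioo, sub_zero] at tot
  have tot2 := tot.trans ((measure_union_le _ _).trans (add_le_add
    ((measure_union_le _ _).trans (add_le_add ((measure_union_le _ _).trans (add_le_add b1 b2))
      b3)) le_rfl))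
  have dt : 0 ≤ d * t := by positivity
  rw [← ENNReal.ofReal_add dt dt, ← ENNReal.ofReal_add (by positivity) dt, ← tsub_le_iff_left,
    ← ENNReal.ofReal_sub _ (by positivity)] at tot2
  refine le_trans ?_ ((mul_le_mul_right tot2 2).trans b4)
  rw [← ENNReal.ofReal_ofNat, ← ENNReal.ofReal_mul zero_le_two]
  exact ENNReal.ofReal_le_ofReal (by nlinarith [mul_le_mul_of_nonneg_right dδ ht.le])

end Vale.Agent.P128
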