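import Vale.Agent.P128.Defs

/-! P128 C/Cover (TASK): covering lemmas that bound `μH[1] S` by a liminf of measures.

Plan.
* `tsum_le_liminf`: `ENNReal.tsum_eq_iSup_sum`, for a finite subfamily use
  `Filter.eventually_all_finset` and `measure_biUnion_finset` (disjoint closed balls, all inside
  `V`), then `Filter.le_liminf_of_le`.
* `cover5`: for each `k` choose for every `x ∈ S` a radius `r k x < 1/(k+1)` with
  `closedBall x (r k x) ⊆ V` and the lower bound of `h`; apply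
  `Vitali.exists_disjoint_subfamily_covering_enlargement_closedBall` with `τ = 5`; the subfamily
  is countable (`Set.PairwiseDisjoint.countable_of_nonempty_interior`); the balls of radius
  `5 r` cover `S` and have diameter at most `10 r` (`Metric.ediam_le...`, `ediam_closedBall_le`);
  use `Measure.hausdorffMeasure_le_liminf_tsum` (with `ι k := subfamily k`) and
  `tsum_le_liminf`: `θ/10 * ∑ 10 r ≤ liminf`.
* `cover`: if the liminf is `∞` there is nothing to prove; otherwise `cover5` gives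
  `μH[1] S < ∞`, so `ν = μH[1].restrict S` is finite. For each `k` apply
  `Besicovitch.exists_disjoint_closedBall_covering_ae ν f S` with `f x` the set of admissible
  radii with `closedBall x t ⊆ V`, `R x = 1/(k+1)`. The set `N k = S \ ⋃ balls` has
  `μH[1] (N k) = 0` (`Measure.le_restrict_apply`). Put `E = S \ ⋃ k, N k`; then
  `μH[1] S ≤ μH[1] E`, and `E` is covered for each `k` by balls of diameter at most `2 t`. -/

namespace Vale.Agent.P128

open MeasureTheory Set Metric Filter Topology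
open scoped ENNReal

theorem tsum_le_liminf (V : Set ℂ) (μ : ℕ → Measure ℂ) (θ : ℝ) (T : Set ℂ) (hT : T.Countable)
    (r : ℂ → ℝ) (hd : T.PairwiseDisjoint fun x => closedBall x (r x))
    (hsub : ∀ x ∈ T, closedBall x (r x) ⊆ V)
    (h : ∀ x ∈ T, ∀ᶠ n in atTop, ENNReal.ofReal (θ * r x) ≤ μ n (closedBall x (r x))) :
    ∑' x : T, ENNReal.ofReal (θ * r x) ≤ liminf (fun n => μ n V) atTop := by
  rw [ENNReal.tsum_eq_iSup_sum]
  refine iSup_le fun F => ?_
  refine le_liminf_of_le (by isBoundedDefault) ?_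
  have h1 : ∀ᶠ n in atTop, ∀ x ∈ F,
      ENNReal.ofReal (θ * r x) ≤ μ n (closedBall (x : ℂ) (r x)) :=
    (eventually_all_finset F).2 fun x _ => h x x.2
  filter_upwards [h1] with n hn
  have h2 : (F : Set T).PairwiseDisjoint fun x : T => closedBall (x : ℂ) (r x) :=
    fun x _ y _ hxy => hd x.2 y.2 fun e => hxy (Subtype.ext e)
  calc ∑ x ∈ F, ENNReal.ofReal (θ * r x) ≤ ∑ x ∈ F, μ n (closedBall (x : ℂ) (r x)) :=
        Finset.sum_le_sum hn
    _ = μ n (⋃ x ∈ F, closedBall (x : ℂ) (r x)) :=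
        (measure_biUnion_finset h2 fun x _ => measurableSet_closedBall).symm
    _ ≤ μ n V := measure_mono (iUnion₂_subset fun x _ => hsub x x.2)

theorem ediam_cb_Cover (x : ℂ) (t : ℝ) : ediam (closedBall x t) ≤ ENNReal.ofReal (2 * t) := by
  refine ediam_le fun y hy z hz => ?_
  rw [edist_dist]
  refine ENNReal.ofReal_le_ofReal ?_
  have h1 := dist_triangle_right y z x
  rw [mem_closedBall] at hy hz
  linarith

theorem haus_le_Cover (E : Set ℂ) (c θ : ℝ) (hc : 0 < c) (hθ : 0 < θ) (M : ℝ≥0∞)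
    (T : ℕ → Set ℂ) (r : ℕ → ℂ → ℝ) (hT : ∀ k, (T k).Countable)
    (hr : ∀ k, ∀ x ∈ T k, r k x ≤ 1 / ((k : ℝ) + 1))
    (hE : ∀ k, E ⊆ ⋃ x ∈ T k, closedBall x (c * r k x))
    (hM : ∀ k, ∑' x : T k, ENNReal.ofReal (θ * r k x) ≤ M) :
    ENNReal.ofReal (θ / (2 * c)) * μH[1] E ≤ M := by
  have : ∀ k, Countable (T k) := fun k => (hT k).to_subtype
  have ht : Tendsto (fun k : ℕ => ENNReal.ofReal (2 * (c * (1 / ((k : ℝ) + 1))))) atTop (𝓝 0) := by
    have h1 : Tendsto (fun k : ℕ => 2 * (c * (1 / ((k : ℝ) + 1)))) atTop (𝓝 (2 * (c * 0))) :=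
      (tendsto_one_div_add_atTop_nhds_zero_nat.const_mul c).const_mul 2
    simpa using ENNReal.tendsto_ofReal h1
  have h1 := Measure.hausdorffMeasure_le_liminf_tsum (ι := fun k => T k) 1 E _ ht
    (fun k x => closedBall (x : ℂ) (c * r k x))
    (Eventually.of_forall fun k x => (ediam_cb_Cover _ _).trans (ENNReal.ofReal_le_ofReal (by
      have := mul_le_mul_of_nonneg_left (hr k x x.2) hc.le
      linarith)))
    (Eventually.of_forall fun k => by
      rw [iUnion_coe_set]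
      exact hE k)
  have h2 : ∀ k, ∑' x : T k, ediam (closedBall (x : ℂ) (c * r k x)) ^ (1 : ℝ) ≤
      ENNReal.ofReal (2 * c / θ) * M := by
    intro k
    refine le_trans ?_ (mul_le_mul_right (hM k) _)
    rw [← ENNReal.tsum_mul_left]
    refine ENNReal.tsum_le_tsum fun x => ?_
    rw [ENNReal.rpow_one, ← ENNReal.ofReal_mul (by positivity)]
    refine (ediam_cb_Cover _ _).trans (le_of_eq ?_)
    congr 1
    field_simp
  have h3 : μH[1] E ≤ ENNReal.ofReal (2 * c / θ) * M :=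
    h1.trans (liminf_le_of_frequently_le' (Frequently.of_forall h2))
  calc ENNReal.ofReal (θ / (2 * c)) * μH[1] E
      ≤ ENNReal.ofReal (θ / (2 * c)) * (ENNReal.ofReal (2 * c / θ) * M) := mul_le_mul_right h3 _
    _ = M := by
      rw [← mul_assoc, ← ENNReal.ofReal_mul (by positivity),
        show θ / (2 * c) * (2 * c / θ) = 1 by field_simp, ENNReal.ofReal_one, one_mul]

theorem adm_Cover (S V : Set ℂ) (hV : IsOpen V) (hSV : S ⊆ V) (μ : ℕ → Measure ℂ) (θ : ℝ)
    (h : ∀ x ∈ S, ∀ δ : ℝ, 0 < δ → ∃ t ∈ Ioo (0 : ℝ) δ,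
      ∀ᶠ n in atTop, ENNReal.ofReal (θ * t) ≤ μ n (closedBall x t)) :
    ∀ x ∈ S, ∀ δ : ℝ, 0 < δ → ∃ t ∈ Ioo (0 : ℝ) δ, closedBall x t ⊆ V ∧
      ∀ᶠ n in atTop, ENNReal.ofReal (θ * t) ≤ μ n (closedBall x t) := by
  intro x hx δ hδ
  obtain ⟨ε, hε, hb⟩ := Metric.isOpen_iff.1 hV x (hSV hx)
  obtain ⟨t, ht, hn⟩ := h x hx (min δ ε) (lt_min hδ hε)
  exact ⟨t, ⟨ht.1, ht.2.trans_le (min_le_left _ _)⟩,
    (closedBall_subset_ball (ht.2.trans_le (min_le_right _ _))).trans hb, hn⟩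

theorem cover5 (S V : Set ℂ) (hV : IsOpen V) (hSV : S ⊆ V) (μ : ℕ → Measure ℂ) (θ : ℝ)
    (hθ : 0 < θ)
    (h : ∀ x ∈ S, ∀ δ : ℝ, 0 < δ → ∃ t ∈ Ioo (0 : ℝ) δ,
      ∀ᶠ n in atTop, ENNReal.ofReal (θ * t) ≤ μ n (closedBall x t)) :
    ENNReal.ofReal (θ / 10) * μH[1] S ≤ liminf (fun n => μ n V) atTop := by
  have ha := adm_Cover S V hV hSV μ θ h
  have h1 : ∀ k : ℕ, ∀ x : ℂ, ∃ t : ℝ, x ∈ S → t ∈ Ioo (0 : ℝ) (1 / ((k : ℝ) + 1)) ∧
      closedBall x t ⊆ V ∧ ∀ᶠ n in atTop, ENNReal.ofReal (θ * t) ≤ μ n (closedBall x t) := by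
    intro k x
    by_cases hx : x ∈ S
    · obtain ⟨t, ht⟩ := ha x hx _ (Nat.one_div_pos_of_nat (n := k))
      exact ⟨t, fun _ => ht⟩
    · exact ⟨0, fun hx' => (hx hx').elim⟩
  choose r hr using h1
  have h2 : ∀ k : ℕ, ∃ u ⊆ S, (u.PairwiseDisjoint fun a => closedBall a (r k a)) ∧
      ∀ a ∈ S, ∃ b ∈ u, closedBall a (r k a) ⊆ closedBall b (5 * r k b) := fun k =>
    Vitali.exists_disjoint_subfamily_covering_enlargement_closedBall S (fun a => a) (r k) _
      (fun a ha' => (hr k a ha').1.2.le) 5 (by norm_num)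
  choose T hTS hTd hTc using h2
  have hT : ∀ k, (T k).Countable := fun k =>
    (hTd k).countable_of_nonempty_interior fun x hx =>
      ⟨x, ball_subset_interior_closedBall (mem_ball_self (hr k x (hTS k hx)).1.1)⟩
  have h3 := haus_le_Cover S 5 θ (by norm_num) hθ (liminf (fun n => μ n V) atTop) T r hT
    (fun k x hx => (hr k x (hTS k hx)).1.2.le)
    (fun k a ha' => by
      obtain ⟨b, hb, hab⟩ := hTc k a ha'
      exact mem_biUnion hb (hab (mem_closedBall_self (hr k a ha').1.1.le)))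
    (fun k => tsum_le_liminf V μ θ (T k) (hT k) (r k) (hTd k)
      (fun x hx => (hr k x (hTS k hx)).2.1) fun x hx => (hr k x (hTS k hx)).2.2)
  rwa [show (2 : ℝ) * 5 = 10 by norm_num] at h3

theorem cover (S V : Set ℂ) (hV : IsOpen V) (hSV : S ⊆ V) (μ : ℕ → Measure ℂ) (θ : ℝ)
    (hθ : 0 < θ)
    (h : ∀ x ∈ S, ∀ δ : ℝ, 0 < δ → ∃ t ∈ Ioo (0 : ℝ) δ,
      ∀ᶠ n in atTop, ENNReal.ofReal (θ * t) ≤ μ n (closedBall x t)) :
    ENNReal.ofReal (θ / 2) * μH[1] S ≤ liminf (fun n => μ n V) atTop := by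
  by_cases hinf : liminf (fun n => μ n V) atTop = ∞
  · rw [hinf]
    exact le_top
  have h5 := cover5 S V hV hSV μ θ hθ h
  have hfin : μH[1] S ≠ ∞ := by
    intro hS
    rw [hS, ENNReal.mul_top (by simpa using hθ)] at h5
    exact hinf (top_le_iff.1 h5)
  have : IsFiniteMeasure ((μH[1] : Measure ℂ).restrict S) :=
    ⟨by rw [Measure.restrict_apply_univ]; exact lt_top_iff_ne_top.2 hfin⟩
  have ha := adm_Cover S V hV hSV μ θ h
  have h2 := fun k : ℕ =>
    Besicovitch.exists_disjoint_closedBall_covering_ae ((μH[1] : Measure ℂ).restrict S)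
      (fun x => {t | closedBall x t ⊆ V ∧
        ∀ᶠ n in atTop, ENNReal.ofReal (θ * t) ≤ μ n (closedBall x t)}) S
      (fun x hx δ hδ => by
        obtain ⟨t, ht, ht'⟩ := ha x hx δ hδ
        exact ⟨t, ht', ht⟩)
      (fun _ => 1 / ((k : ℝ) + 1)) fun _ _ => Nat.one_div_pos_of_nat (n := k)
  choose T r hT hTS hr hN hTd using h2
  have hN' : ∀ k, μH[1] (S \ ⋃ x ∈ T k, closedBall x (r k x)) = 0 := by
    intro k
    have h3 := Measure.le_restrict_apply (μ := (μH[1] : Measure ℂ)) S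
      (S \ ⋃ x ∈ T k, closedBall x (r k x))
    rw [hN k, inter_eq_left.2 sdiff_subset] at h3
    exact le_zero_iff.1 h3
  have hE : μH[1] (S \ ⋃ k, (S \ ⋃ x ∈ T k, closedBall x (r k x))) = μH[1] S :=
    measure_sdiff_null (measure_iUnion_null hN')
  have h3 := haus_le_Cover (S \ ⋃ k, (S \ ⋃ x ∈ T k, closedBall x (r k x))) 1 θ one_pos hθ
    (liminf (fun n => μ n V) atTop) T r hT (fun k x hx => (hr k x hx).2.2.le)
    (fun k a ha' => by
      simp only [one_mul]
      by_contra hna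
      exact ha'.2 (mem_iUnion.2 ⟨k, ha'.1, hna⟩))
    (fun k => tsum_le_liminf V μ θ (T k) (hT k) (r k) (hTd k)
      (fun x hx => (hr k x hx).1.1) fun x hx => (hr k x hx).1.2)
  rwa [mul_one, hE] at h3

end Vale.Agent.P128
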