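import Vale.Agent.P128.TA2.Main

/-! P128 C/Cut (TASK): cutoff functions and good radii.

Plan. `cutoff`: `IsCompact.exists_cthickening_subset_open` gives `τ > 0` with
`cthickening τ S ⊆ W`; `T = cthickening τ S` is compact (`IsCompact.cthickening`);
`ψ z = (thickenedIndicator hτ S z : ℝ)` (`lipschitzWith_thickenedIndicator`,
`thickenedIndicator_one`, `thickenedIndicator_zero`, `thickenedIndicator_le_one`).
`sphere_thick`: the sets `A k = (sphere y ρ ∩ cthickening (1/(k+1)) L) \ L` decrease, have finite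
length (`len_sphere`) and empty intersection (`closure_eq_iInter_cthickening'` or
`mem_closure_iff_infEDist_zero`); `tendsto_measure_iInter_atTop`.
`null_sphere`: `Measure.countable_meas_level_set_pos` for the finite measure
`μH[1].restrict (L ∩ closedBall y b)` and `fun z => dist z y`; an interval is not countable
(`Set.Countable.measure_zero` with `Real.volume_Ioo`, or `Set.Countable.dense_compl`). -/

namespace Vale.Agent.P128

open MeasureTheory Set Metric Filter Topology
open scoped ENNReal NNReal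

theorem cutoff {S W : Set ℂ} (hS : IsCompact S) (hW : IsOpen W) (hSW : S ⊆ W) :
    ∃ (ψ : ℂ → ℝ) (M : ℝ≥0) (T : Set ℂ), IsCompact T ∧ T ⊆ W ∧ S ⊆ T ∧ LipschitzWith M ψ ∧
      (∀ z, |ψ z| ≤ 1) ∧ (∀ z ∈ S, ψ z = 1) ∧ ∀ z, z ∉ T → ψ z = 0 := by
  obtain ⟨τ, hτ, h⟩ := hS.exists_cthickening_subset_open hW hSW
  refine ⟨fun z => (thickenedIndicator hτ S z : ℝ), 1 * τ.toNNReal⁻¹, cthickening τ S,
    hS.cthickening, h, self_subset_cthickening S,
    NNReal.isometry_coe.lipschitz.comp (lipschitzWith_thickenedIndicator hτ S), fun z => ?_,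
    fun z hz => ?_, fun z hz => ?_⟩
  · rw [abs_of_nonneg (NNReal.coe_nonneg _)]
    exact_mod_cast thickenedIndicator_le_one hτ S z
  · simp only [thickenedIndicator_one hτ S hz, NNReal.coe_one]
  · simp only [thickenedIndicator_zero hτ S fun h => hz (thickening_subset_cthickening τ S h),
      NNReal.coe_zero]

theorem sphere_thick {L : Set ℂ} (hL : IsClosed L) (y : ℂ) {ρ η : ℝ} (hρ : 0 < ρ) (hη : 0 < η) :
    ∃ κ : ℝ, 0 < κ ∧ μH[1] ((sphere y ρ ∩ cthickening κ L) \ L) ≤ ENNReal.ofReal η := by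
  set A : ℕ → Set ℂ := fun k => (sphere y ρ ∩ cthickening (1 / ((k : ℝ) + 1)) L) \ L with hA
  have hm : ∀ k, MeasurableSet (A k) := fun k =>
    (isClosed_sphere.inter isClosed_cthickening).measurableSet.diff hL.measurableSet
  have ha : Antitone A := fun k l hkl =>
    sdiff_subset_sdiff_left (inter_subset_inter_right _
      (cthickening_mono (Nat.one_div_le_one_div hkl) L))
  have hf : μH[1] (A 0) ≠ ∞ :=
    ((measure_mono fun z hz => hz.1.1).trans_lt
      ((len_sphere y hρ.le).trans_lt ENNReal.ofReal_lt_top)).ne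
  have he : ⋂ k, A k = ∅ := by
    refine eq_empty_of_forall_notMem fun z hz => (mem_iInter.1 hz 0).2 ?_
    rw [← hL.closure_eq, closure_eq_iInter_cthickening]
    refine mem_iInter₂.2 fun δ hδ => ?_
    obtain ⟨k, hk⟩ := exists_nat_one_div_lt hδ
    exact cthickening_mono hk.le L (mem_iInter.1 hz k).1.2
  have ht := tendsto_measure_iInter_atTop (μ := μH[1]) (fun k => (hm k).nullMeasurableSet) ha
    ⟨0, hf⟩
  rw [he, measure_empty] at ht
  obtain ⟨k, hk⟩ := (ht.eventually (ge_mem_nhds (ENNReal.ofReal_pos.2 hη))).exists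
  exact ⟨_, Nat.one_div_pos_of_nat, hk⟩

theorem null_sphere {L : Set ℂ} (hL : IsClosed L) (y : ℂ) {a b : ℝ} (hab : a < b)
    (hfin : μH[1] (L ∩ closedBall y b) < ∞) : ∃ ρ ∈ Ioo a b, μH[1] (L ∩ sphere y ρ) = 0 := by
  have : IsFiniteMeasure ((μH[1] : Measure ℂ).restrict (L ∩ closedBall y b)) :=
    isFiniteMeasure_restrict.2 hfin.ne
  have hc := Measure.countable_meas_level_set_pos
    (μ := (μH[1] : Measure ℂ).restrict (L ∩ closedBall y b)) (g := fun z => dist z y)
    (continuous_id.dist continuous_const).measurable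
  obtain ⟨ρ, h1, h2⟩ := (hc.dense_compl ℝ).exists_mem_open isOpen_Ioo (nonempty_Ioo.2 hab)
  refine ⟨ρ, h2, ?_⟩
  have h3 : (μH[1] : Measure ℂ).restrict (L ∩ closedBall y b) (sphere y ρ) = 0 :=
    nonpos_iff_eq_zero.1 (not_lt.1 h1)
  rw [Measure.restrict_apply isClosed_sphere.measurableSet] at h3
  refine measure_mono_null (fun z hz => ?_) h3
  exact ⟨hz.2, hz.1, (mem_sphere.1 hz.2).trans_le h2.2.le⟩

end Vale.Agent.P128
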