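import Vale.Agent.P128.C.EnM

/-! P128 C/Glue1 (TASK): a competitor of the limit gives a competitor of a term of the sequence.

Plan. Let `Z = sphere y ρ ∩ cthickening κ L`, `L'' = (L' ∩ closedBall y ρ) ∪ Z ∪ (K \ ball y ρ)`.
From `hc.sep trivial c` get `c'` locally constant off `L'` with `c' = c` off `L ∪ closedBall y r`.
Put `e z = u z - c z - v z`, `f z = (w z + c' z) + ψ z * e z`,
`w' z = if z ∈ closedBall y ρ then f z else u z`.
* A point of `K ∩ sphere y ρ` is not in `T`, so it is in `thickening κ L`, so in `Z`; a point of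
  `Z ∩ L` is in `L'` by `hc.eqL`.
* On `sphere y ρ \ L''` we are off `thickening κ L`, so `ψ = 1`, `w = v`, `c' = c`, hence `f = u`.
* `lip`: `locLip_glue`. At `z ∉ L'`: if `z ∉ T` then `ψ = 0` near `z` and `f = w + c' z` near `z`;
  if `z ∈ T` then near `z` we have `f = (v + c z) + ψ * (u - c z - v)` and `locLip_trunc`
  (with `T = id`, on a small ball inside `(Ω \ K) ∩ Lᶜ`) applies; `smooth_of_holo` for `u`.
* derivative bound: same two cases, `Filter.EventuallyEq.fderiv_eq`, `fderiv_add_const`,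
  `norm_fderiv_trunc`; in the second case `w = v` near `z`.
* `sep`: given `c₁`, take `c₂` from `htr`, `c₃` from `hc.sep trivial c₂`, and
  `fun z => if z ∈ closedBall y ρ then c₃ z else c₁ z`; near a point of `sphere y ρ \ L''` we have
  `c₃ = c₂ = c₁`. -/

namespace Vale.Agent.P128

open MeasureTheory Set Metric Filter Topology
open scoped ENNReal NNReal

theorem glue_comp {Ω : Set ℂ} {ε : ℝ} {wk : Prop} {u : ℂ → ℝ} {K : Set ℂ} (h : AM0 Ω ε wk u K)
    {v : ℂ → ℝ} {L : Set ℂ} (hL : IsClosed L) (hvd : ∀ z ∉ L, DifferentiableAt ℝ v z)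
    (hvl : LocallyLipschitzOn Lᶜ v) {y : ℂ} {r ρ κ τ : ℝ} (hρ : r < ρ) (hτ0 : 0 ≤ τ)
    (hB : closedBall y ρ ⊆ Ω) {w : ℂ → ℝ} {L' : Set ℂ} (hc : Comp univ True v L y r w L')
    {ψ : ℂ → ℝ} {M : ℝ≥0} {T : Set ℂ} (hT : IsClosed T) (hTL : T ⊆ Lᶜ \ closedBall y r)
    (hTK : T ⊆ Ω \ K) (hS : sphere y ρ \ thickening κ L ⊆ T) (hψ : LipschitzWith M ψ)
    (h1 : ∀ z, |ψ z| ≤ 1) (hψ1 : ∀ z ∈ sphere y ρ \ thickening κ L, ψ z = 1)
    (hψ0 : ∀ z, z ∉ T → ψ z = 0) {c : ℂ → ℝ} (hcL : LC Lᶜ c)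
    (hτ : ∀ z ∈ T, |u z - c z - v z| ≤ τ ∧ ‖fderiv ℝ u z - fderiv ℝ v z‖ ≤ τ)
    (htr : ∀ c₁ : ℂ → ℝ, LC (Ω \ K) c₁ → ∃ c₂ : ℂ → ℝ, LC Lᶜ c₂ ∧
      ∀ z ∈ sphere y ρ \ thickening κ L, ∀ᶠ p in 𝓝 z, c₂ p = c₁ p) :
    ∃ (w' : ℂ → ℝ) (L'' : Set ℂ), Comp Ω wk u K y ρ w' L'' ∧
      L'' ∩ closedBall y ρ ⊆ (L' ∩ closedBall y ρ) ∪ ((sphere y ρ ∩ cthickening κ L) \ L) ∧
      ball y ρ \ L'' ⊆ ball y ρ \ L' ∧
      ∀ z ∈ ball y ρ \ L', ‖fderiv ℝ w' z‖ ≤ ‖fderiv ℝ w z‖ + (1 + M) * τ := by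
  classical
  obtain ⟨c', hc1, hc2⟩ := hc.sep trivial c fun z hz => hcL z hz.2
  set f : ℂ → ℝ := fun z => (w z + c' z) + ψ z * (u z - c z - v z) with hf
  set Z := sphere y ρ ∩ cthickening κ L with hZ
  set L'' := (L' ∩ closedBall y ρ) ∪ Z ∪ (K \ ball y ρ) with hL''
  have hcl : IsClosed L'' := ((hc.closed.inter isClosed_closedBall).union
    (isClosed_sphere.inter isClosed_cthickening)).union (h.closed.sdiff isOpen_ball)
  have hU : IsOpen (Ω \ L'') := h.isOpen.sdiff hcl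
  have hO : IsOpen (Lᶜ \ closedBall y r) := hL.isOpen_compl.sdiff isClosed_closedBall
  have hsph : ∀ z, z ∈ closedBall y ρ → z ∉ ball y ρ → z ∈ sphere y ρ := fun z h1 h2 =>
    le_antisymm h1 (not_lt.1 h2)
  have hST : ∀ z ∈ sphere y ρ, z ∉ L'' → z ∈ sphere y ρ \ thickening κ L := fun z h1 h2 =>
    ⟨h1, fun h3 => h2 (Or.inl (Or.inr ⟨h1, thickening_subset_cthickening _ _ h3⟩))⟩
  have hK : ∀ z, z ∉ L'' → z ∉ ball y ρ → z ∉ K := fun z h1 h2 h3 => h1 (Or.inr ⟨h3, h2⟩)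
  have hL' : ∀ z, z ∉ L'' → z ∈ closedBall y ρ → z ∉ L' := fun z h1 h2 h3 =>
    h1 (Or.inl (Or.inl ⟨h3, h2⟩))
  have hwv : ∀ z ∈ Lᶜ \ closedBall y r, w z = v z ∧ c' z = c z := fun z hz =>
    ⟨hc.eqw z ⟨mem_univ _, hz.1⟩ hz.2, hc2 z ⟨mem_univ _, hz.1⟩ hz.2⟩
  have hA : ∀ z, z ∉ L' → z ∉ T → f =ᶠ[𝓝 z] fun p => w p + c' z := by
    intro z h1 h2
    filter_upwards [hc1 z ⟨mem_univ _, h1⟩, hT.isOpen_compl.mem_nhds h2] with p a b
    simp only [hf, a, hψ0 p b, zero_mul, add_zero]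
  have hB' : ∀ z ∈ T, (f =ᶠ[𝓝 z] fun p => (v p + c z) + ψ p * id (u p - c z - v p)) ∧
      w =ᶠ[𝓝 z] v := by
    intro z hz
    constructor
    · filter_upwards [hcL z (hTL hz).1, hO.mem_nhds (hTL hz)] with p a b
      simp only [hf, a, (hwv p b).1, (hwv p b).2, id]
    · filter_upwards [hO.mem_nhds (hTL hz)] with p b using (hwv p b).1
  have hfu : ∀ z ∈ sphere y ρ, z ∉ L'' → f z = u z := by
    intro z h1 h2
    have a := hST z h1 h2
    have b := hwv z (hTL (hS a))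
    simp only [hf, hψ1 z a, b.1, b.2]
    ring
  have hlip : ∀ z, z ∉ L' → LipAt f z := by
    intro z hz
    by_cases hzT : z ∈ T
    · have hV : IsOpen ((Ω \ K) ∩ Lᶜ) := (h.isOpen.sdiff h.closed).inter hL.isOpen_compl
      have lu : ∀ p ∈ (Ω \ K) ∩ Lᶜ, LipAt u p := fun p hp =>
        (locLip_iff (h.isOpen.sdiff h.closed)).1 h.locLip p hp.1
      have lv : ∀ p ∈ (Ω \ K) ∩ Lᶜ, LipAt v p := fun p hp =>
        (locLip_iff hL.isOpen_compl).1 hvl p hp.2
      have := locLip_trunc (f := fun p => v p + c z) (e := fun p => u p - c z - v p) (T := id)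
        ((locLip_iff hV).2 fun p hp => (lv p hp).add (lipAt_const _ _))
        ((locLip_iff hV).2 fun p hp =>
          (((lu p hp).add (lipAt_const (-c z) p)).add ((lv p hp).cmul (-1))).congr
            (Eventually.of_forall fun q => by ring)) hψ h1 LipschitzWith.id
      exact ((locLip_iff hV).1 this z ⟨hTK hzT, (hTL hzT).1⟩).congr (hB' z hzT).1
    · exact (((locLip_iff (isOpen_univ.sdiff hc.closed)).1 hc.lip z ⟨mem_univ _, hz⟩).add
        (lipAt_const (c' z) z)).congr (hA z hz hzT)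
  have hZ' : ∀ z ∈ Z, z ∈ (L' ∩ closedBall y ρ) ∪ (Z \ L) := by
    intro z hz
    by_cases hzL : z ∈ L
    · have : z ∈ L \ closedBall y r := ⟨hzL, fun h' => by
        have a : dist z y = ρ := hz.1
        have b : dist z y ≤ r := h'
        linarith⟩
      rw [← hc.eqL] at this
      exact Or.inl ⟨this.1, sphere_subset_closedBall hz.1⟩
    · exact Or.inr ⟨hz, hzL⟩
  refine ⟨fun z => if z ∈ closedBall y ρ then f z else u z, L'',
    ⟨hcl, ?_, fun z _ hz => if_neg hz, ?_, fun _ c₁ hc₁ => ?_⟩, ?_,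
    fun z hz => ⟨hz.1, hL' z hz.2 (ball_subset_closedBall hz.1)⟩, fun z hz => ?_⟩
  · ext z
    constructor
    · rintro ⟨(a | a) | a, b⟩
      · exact (b a.2).elim
      · exact (b (sphere_subset_closedBall a.1)).elim
      · exact ⟨a.1, b⟩
    · exact fun a => ⟨Or.inr ⟨a.1, fun b => a.2 (ball_subset_closedBall b)⟩, a.2⟩
  · refine locLip_glue hU (y := y) (s := ρ) (f := f) (g := u)
      (((locLip_iff hc.closed.isOpen_compl).2 hlip).mono fun z hz => hL' z hz.1.2 hz.2)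
      (h.locLip.mono fun z hz => ⟨hz.1.1, hK z hz.1.2 hz.2⟩) (fun z hz => hfu z hz.2 hz.1.2)
      (fun z hz => if_pos hz.2) fun z hz => ?_
    split_ifs with a
    · exact hfu z (hsph z a hz.2) hz.1.2
    · rfl
  · obtain ⟨c₂, a2, b2⟩ := htr c₁ hc₁
    obtain ⟨c₃, a3, b3⟩ := hc.sep trivial c₂ fun z hz => a2 z hz.2
    refine ⟨fun z => if z ∈ closedBall y ρ then c₃ z else c₁ z, fun z hz => ?_,
      fun z _ hz => if_neg hz⟩
    by_cases h1 : z ∈ ball y ρ
    · filter_upwards [a3 z ⟨mem_univ _, hL' z hz.2 (ball_subset_closedBall h1)⟩,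
        isOpen_ball.mem_nhds h1] with p a b
      rw [if_pos (ball_subset_closedBall b), if_pos (ball_subset_closedBall h1), a]
    · have hzK := hc₁ z ⟨hz.1, hK z hz.2 h1⟩
      by_cases h2 : z ∈ closedBall y ρ
      · have a := hST z (hsph z h2 h1) hz.2
        have e : ∀ᶠ p in 𝓝 z, (if p ∈ closedBall y ρ then c₃ p else c₁ p) = c₁ p := by
          filter_upwards [b2 z a, hO.mem_nhds (hTL (hS a))] with p b d
          split_ifs
          · rw [b3 p ⟨mem_univ _, d.1⟩ d.2, b]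
          · rfl
        filter_upwards [e, hzK] with p b d
        rw [b, d, e.self_of_nhds]
      · filter_upwards [hzK, isClosed_closedBall.isOpen_compl.mem_nhds h2] with p a b
        rw [if_neg b, if_neg h2, a]
  · rintro z ⟨(a | a) | a, b⟩
    · exact Or.inl a
    · exact hZ' z a
    · have s := hsph z b a.2
      refine hZ' z ⟨s, thickening_subset_cthickening _ _ ?_⟩
      by_contra d
      exact (hTK (hS ⟨s, d⟩)).2 a.1
  · have e : (fun z => if z ∈ closedBall y ρ then f z else u z) =ᶠ[𝓝 z] f := by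
      filter_upwards [isOpen_ball.mem_nhds hz.1] with p b using if_pos (ball_subset_closedBall b)
    rw [e.fderiv_eq]
    have hM : (0 : ℝ) ≤ M := M.2
    by_cases hzT : z ∈ T
    · have dv := hvd z (hTL hzT).1
      have du := h.diff z (hTK hzT)
      have := norm_fderiv_trunc (f := fun p => v p + c z) (e := fun p => u p - c z - v p) (T := id)
        (dv.add_const _) ((du.sub_const _).sub dv) hψ h1 LipschitzWith.id
      rw [fderiv_add_const, fderiv_fun_sub (du.sub_const _) dv, fderiv_sub_const] at this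
      rw [(hB' z hzT).1.fderiv_eq, (hB' z hzT).2.fderiv_eq]
      have a := mul_le_mul_of_nonneg_left (hτ z hzT).1 hM
      have b := (hτ z hzT).2
      simp only [id] at this ⊢
      linarith
    · rw [(hA z hz.2 hzT).fderiv_eq, fderiv_add_const]
      have : 0 ≤ (1 + (M : ℝ)) * τ := by positivity
      linarith

end Vale.Agent.P128
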