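import Vale.Agent.P128.Defs

/-! P128 C/LCT (TASK): transfer of locally constant functions.

Plan. `LC.eq_of_isPreconnected`: a function that is locally constant on `W` is constant on a
preconnected subset (`IsPreconnected.constant` after showing `ContinuousOn` for the discrete
topology, or `IsPreconnected.induction₂'`, or `isPreconnected_iff_subset_of_disjoint`).
`lc_transfer`: cover `S` by finitely many open balls `ball (p i) (δ i)` with
`closedBall (p i) (δ i) ⊆ U` (`IsCompact.elim_nhds_subcover`). For every pair `i, j` with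
`JoinedIn U (p i) (p j)` choose a path in `U`. Let `T` be the union of the closed balls and of the
ranges of these paths (a finite union of compact sets). Given `c`, define
`c' z = c (p i)` if there is `i` with `JoinedIn U (p i) z` (choose one; two choices give the same
value because `c` is constant along the chosen path) and `c' z = 0` otherwise. `c'` is locally
constant on `U` because a small ball around `z ∈ U` is convex, so `JoinedIn U (p i) w` is
equivalent to `JoinedIn U (p i) z` for `w` in it. On `ball (p i) (δ i)` we get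
`c' w = c (p i) = c w`. -/

namespace Vale.Agent.P128

open MeasureTheory Set Metric Filter Topology
open scoped ENNReal

theorem LC.eq_of_isPreconnected {W S : Set ℂ} {c : ℂ → ℝ} (h : LC W c) (hS : IsPreconnected S)
    (hSW : S ⊆ W) {z w : ℂ} (hz : z ∈ S) (hw : w ∈ S) : c z = c w := by
  refine hS.induction₂' (fun a b => c a = c b) (fun x hx => ?_)
    (fun _ _ _ _ _ _ h1 h2 => h1.trans h2) hz hw
  filter_upwards [mem_nhdsWithin_of_mem_nhds (h x (hSW hx))] with y hy
  exact ⟨hy.symm, hy⟩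

private theorem LCT_ball {U : Set ℂ} {p w : ℂ} {δ : ℝ} (h : ball p δ ⊆ U) (hw : w ∈ ball p δ) :
    JoinedIn U p w :=
  (((convex_ball p δ).isPathConnected ⟨w, hw⟩).joinedIn p
    (mem_ball_self (pos_of_mem_ball hw)) w hw).mono h

private theorem LCT_pair (U : Set ℂ) (p q : ℂ) : ∃ R : Set ℂ, IsCompact R ∧ R ⊆ U ∧
    IsPreconnected R ∧ (JoinedIn U p q → p ∈ R ∧ q ∈ R) := by
  by_cases h : JoinedIn U p q
  · refine ⟨range h.somePath, isCompact_range h.somePath.continuous, ?_,
      isPreconnected_range h.somePath.continuous, fun _ => ⟨⟨0, h.somePath.source⟩,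
        ⟨1, h.somePath.target⟩⟩⟩
    rintro _ ⟨t, rfl⟩
    exact h.somePath_mem t
  · exact ⟨∅, isCompact_empty, empty_subset _, isPreconnected_empty, fun h' => absurd h' h⟩

theorem lc_transfer (U : Set ℂ) (hU : IsOpen U) (S : Set ℂ) (hS : IsCompact S) (hSU : S ⊆ U) :
    ∃ T : Set ℂ, IsCompact T ∧ T ⊆ U ∧ ∀ (W : Set ℂ) (c : ℂ → ℝ), T ⊆ W → LC W c →
      ∃ c' : ℂ → ℝ, LC U c' ∧ ∀ z ∈ S, ∀ᶠ w in 𝓝 z, c' w = c w := by
  classical
  have h0 : ∀ p : ℂ, ∃ δ : ℝ, p ∈ U → 0 < δ ∧ closedBall p δ ⊆ U := by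
    intro p
    by_cases hp : p ∈ U
    · obtain ⟨δ, hδ, h⟩ := nhds_basis_closedBall.mem_iff.1 (hU.mem_nhds hp)
      exact ⟨δ, fun _ => ⟨hδ, h⟩⟩
    · exact ⟨0, fun h => absurd h hp⟩
  choose δ hδ using h0
  choose R hR using LCT_pair U
  obtain ⟨t, ht, hc⟩ := hS.elim_nhds_subcover (fun p => ball p (δ p))
    (fun p hp => ball_mem_nhds p (hδ p (hSU hp)).1)
  refine ⟨(⋃ p ∈ t, closedBall p (δ p)) ∪ ⋃ p ∈ t, ⋃ q ∈ t, R p q, ?_, ?_, ?_⟩
  · exact (t.isCompact_biUnion fun p _ => isCompact_closedBall p _).union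
      (t.isCompact_biUnion fun p _ => t.isCompact_biUnion fun q _ => (hR p q).1)
  · refine union_subset (iUnion₂_subset fun p hp => (hδ p (hSU (ht p hp))).2) ?_
    exact iUnion₂_subset fun p _ => iUnion₂_subset fun q _ => (hR p q).2.1
  intro W c hW hc'
  have hpq : ∀ p ∈ t, ∀ q ∈ t, JoinedIn U p q → c p = c q := by
    intro p hp q hq h
    refine hc'.eq_of_isPreconnected (hR p q).2.2.1 ?_ ((hR p q).2.2.2 h).1 ((hR p q).2.2.2 h).2
    intro x hx
    exact hW (Or.inr (mem_iUnion₂.2 ⟨p, hp, mem_iUnion₂.2 ⟨q, hq, hx⟩⟩))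
  obtain ⟨c', h1, h2⟩ : ∃ c' : ℂ → ℝ, (∀ z, ∀ p ∈ t, JoinedIn U p z → c' z = c p) ∧
      ∀ z, (¬ ∃ p ∈ t, JoinedIn U p z) → c' z = 0 := by
    refine ⟨fun z => if h : ∃ p ∈ t, JoinedIn U p z then c h.choose else 0, ?_, ?_⟩
    · intro z p hp hj
      have h : ∃ p ∈ t, JoinedIn U p z := ⟨p, hp, hj⟩
      simp only [dif_pos h]
      exact hpq _ h.choose_spec.1 p hp (h.choose_spec.2.trans hj.symm)
    · intro z h
      simp only [dif_neg h]
  refine ⟨c', fun z hz => ?_, fun z hz => ?_⟩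
  · have hb : ball z (δ z) ⊆ U := ball_subset_closedBall.trans (hδ z hz).2
    filter_upwards [ball_mem_nhds z (hδ z hz).1] with w hw
    have hj := LCT_ball hb hw
    by_cases h : ∃ p ∈ t, JoinedIn U p z
    · obtain ⟨p, hp, h⟩ := h
      rw [h1 z p hp h, h1 w p hp (h.trans hj)]
    · rw [h2 z h, h2 w fun ⟨p, hp, h'⟩ => h ⟨p, hp, h'.trans hj.symm⟩]
  · obtain ⟨p, hp, hz'⟩ := mem_iUnion₂.1 (hc hz)
    have hp' := hδ p (hSU (ht p hp))
    have hb : ball p (δ p) ⊆ U := ball_subset_closedBall.trans hp'.2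
    filter_upwards [isOpen_ball.mem_nhds hz'] with w hw
    rw [h1 w p hp (LCT_ball hb hw)]
    refine hc'.eq_of_isPreconnected (convex_ball p (δ p)).isPreconnected ?_
      (mem_ball_self hp'.1) hw
    intro x hx
    exact hW (Or.inl (mem_iUnion₂.2 ⟨p, hp, ball_subset_closedBall hx⟩))

end Vale.Agent.P128
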