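import Vale.Agent.P128.C.Glue1
import Vale.Agent.P128.C.Cut
import Vale.Agent.P128.C.Fatou
import Vale.Agent.P128.C.Prim
import Vale.Agent.P128.C.LCT

/-! P128 C/Glue2 (TASK): the energies of the sequence are asymptotically bounded by the energy
of every competitor of the limit.

Plan for `glue_energy`: the sphere is null (`Measure.addHaar_sphere`, so
`closedBall y ρ \ L'' =ᵐ ball y ρ \ L''` or `lintegral_union_le`), `(p + q)^2 ≤ (1 + β) p^2 + (1 + 1/β) q^2`,
`Complex.volume_ball`, `measure_union_le`.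
Plan for `glue`. If `En w L' (closedBall y ρ) = ∞` trivial. Otherwise let `A` be the real value
of `Dir w (closedBall y ρ \ L')`, choose `β > 0` with `β A ≤ η/4`, `κ` from `sphere_thick` for `η/4`,
`S = sphere y ρ \ thickening κ L` (compact, inside `Lᶜ \ closedBall y r`), `ψ M T` from `cutoff`,
`T'` from `lc_transfer Lᶜ S`, `cn` from `const Lᶜ` (its hypothesis `hd` follows from
`Seq.ev_compact`, `h.up` and `AM0.diff`), `τ > 0` with `(1 + 1/β) ((1 + M) τ)^2 π ρ^2 ≤ η/4`.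
Eventually: `closedBall y ρ ⊆ Ω n`, `T ∪ T' ⊆ Ω n \ K n`, the two bounds by `τ` on `T`
(`tendstoLocallyUniformlyOn_iff_forall_isCompact`, `Metric.tendstoUniformlyOn_iff`) and
`ε n * ρ * √ρ ≤ η/4`. Then `glue_comp`, `AM0.min` and `glue_energy`. The local Lipschitz
property of `v` comes from `smooth_of_holo`. -/

namespace Vale.Agent.P128

open MeasureTheory Set Metric Filter Topology
open scoped ENNReal NNReal

variable {c : ℝ} {Ω : ℕ → Set ℂ} {ε : ℕ → ℝ} {wk : ℕ → Prop} {u : ℕ → ℂ → ℝ} {K : ℕ → Set ℂ}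
  {v : ℂ → ℝ} {L : Set ℂ}

theorem Glue2_sq {a p q β : ℝ} (hβ : 0 < β) (ha : 0 ≤ a) (h : a ≤ p + q) :
    a ^ 2 ≤ (1 + β) * p ^ 2 + (1 + 1 / β) * q ^ 2 := by
  have h1 : a ^ 2 ≤ (p + q) ^ 2 := pow_le_pow_left₀ ha h 2
  have h2 : (1 + β) * p ^ 2 + (1 + 1 / β) * q ^ 2 - (p + q) ^ 2 = (β * p - q) ^ 2 / β := by
    field_simp
    ring
  have h3 : 0 ≤ (β * p - q) ^ 2 / β := by positivity
  linarith

theorem glue_energy {w w' : ℂ → ℝ} {L' L'' Z : Set ℂ} {y : ℂ} {ρ β q : ℝ} (hρ : 0 < ρ)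
    (hβ : 0 < β) (hq : 0 ≤ q) (hL' : IsClosed L')
    (h1 : L'' ∩ closedBall y ρ ⊆ (L' ∩ closedBall y ρ) ∪ Z) (h2 : ball y ρ \ L'' ⊆ ball y ρ \ L')
    (h3 : ∀ z ∈ ball y ρ \ L', ‖fderiv ℝ w' z‖ ≤ ‖fderiv ℝ w z‖ + q) :
    En w' L'' (closedBall y ρ) ≤ En w L' (closedBall y ρ) +
      ENNReal.ofReal β * Dir w (closedBall y ρ \ L') +
      ENNReal.ofReal ((1 + 1 / β) * q ^ 2 * (Real.pi * ρ ^ 2)) + μH[1] Z := by
  have k1 : Dir w' (closedBall y ρ \ L'') ≤ Dir w' (ball y ρ \ L') := by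
    refine (lintegral_mono_set (t := (ball y ρ \ L') ∪ sphere y ρ) fun z hz => ?_).trans
      ((lintegral_union_le _ _ _).trans_eq ?_)
    · rcases (mem_closedBall.1 hz.1).lt_or_eq with h | h
      · exact Or.inl (h2 ⟨h, hz.2⟩)
      · exact Or.inr h
    · rw [setLIntegral_measure_zero (sphere y ρ) _ (Measure.addHaar_sphere volume y ρ), add_zero]
      rfl
  have k2 : Dir w' (ball y ρ \ L') ≤ ENNReal.ofReal (1 + β) * Dir w (closedBall y ρ \ L') +
      ENNReal.ofReal ((1 + 1 / β) * q ^ 2 * (Real.pi * ρ ^ 2)) := by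
    refine (setLIntegral_mono' (g := fun z => ENNReal.ofReal (1 + β) * ‖fderiv ℝ w z‖ₑ ^ 2 +
      ENNReal.ofReal ((1 + 1 / β) * q ^ 2)) (measurableSet_ball.diff hL'.measurableSet)
      fun z hz => ?_).trans ?_
    · rw [← ofReal_norm, ← ofReal_norm, ← ENNReal.ofReal_pow (norm_nonneg _),
        ← ENNReal.ofReal_pow (norm_nonneg _), ← ENNReal.ofReal_mul (by positivity),
        ← ENNReal.ofReal_add (by positivity) (by positivity)]
      exact ENNReal.ofReal_le_ofReal (Glue2_sq hβ (norm_nonneg _) (h3 z hz))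
    · rw [lintegral_add_right _ measurable_const, setLIntegral_const,
        lintegral_const_mul' _ _ ENNReal.ofReal_ne_top,
        ENNReal.ofReal_mul (p := (1 + 1 / β) * q ^ 2) (by positivity), ← Fatou_ball y hρ.le]
      exact add_le_add (mul_le_mul_right (lintegral_mono_set
        (sdiff_subset_sdiff_left ball_subset_closedBall)) _)
        (mul_le_mul_right (measure_mono sdiff_subset) _)
  have k3 : μH[1] (L'' ∩ closedBall y ρ) ≤ μH[1] (L' ∩ closedBall y ρ) + μH[1] Z :=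
    (measure_mono h1).trans (measure_union_le _ _)
  refine (add_le_add (k1.trans k2) k3).trans_eq ?_
  rw [ENNReal.ofReal_add zero_le_one hβ.le, ENNReal.ofReal_one, En]
  ring

theorem glue (hs : Seq c Ω ε wk u K) (h : Conv0 u K v L) {y : ℂ} {r ρ : ℝ} (hr : 0 < r)
    (hρ : r < ρ) {w : ℂ → ℝ} {L' : Set ℂ} (hc : Comp univ True v L y r w L') {η : ℝ}
    (hη : 0 < η) : ∀ᶠ n in atTop,
      En (u n) (K n) (closedBall y ρ) ≤ En w L' (closedBall y ρ) + ENNReal.ofReal η := by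
  have hρ0 : 0 < ρ := hr.trans hρ
  by_cases hfin : Dir w (closedBall y ρ \ L') = ∞
  · refine Eventually.of_forall fun n => ?_
    have e : En w L' (closedBall y ρ) = ∞ := by rw [En, hfin, top_add]
    rw [e, top_add]
    exact le_top
  obtain ⟨β, hβ, e1⟩ : ∃ β : ℝ, 0 < β ∧
      ENNReal.ofReal β * Dir w (closedBall y ρ \ L') ≤ ENNReal.ofReal (η / 4) := by
    have hA := ENNReal.toReal_nonneg (a := Dir w (closedBall y ρ \ L'))
    refine ⟨η / 4 / ((Dir w (closedBall y ρ \ L')).toReal + 1), by positivity, ?_⟩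
    rw [← ENNReal.ofReal_toReal hfin, ENNReal.toReal_ofReal hA,
      ← ENNReal.ofReal_mul (by positivity)]
    refine ENNReal.ofReal_le_ofReal ?_
    rw [div_mul_eq_mul_div, div_le_iff₀ (by positivity)]
    nlinarith
  obtain ⟨κ, hκ, e2⟩ := sphere_thick h.closed y hρ0 (η := η / 4) (by positivity)
  have hS : IsCompact (sphere y ρ \ thickening κ L) :=
    (isCompact_sphere y ρ).diff isOpen_thickening
  have hSW : sphere y ρ \ thickening κ L ⊆ Lᶜ \ closedBall y r := fun z hz =>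
    ⟨fun hL => hz.2 (self_subset_thickening hκ L hL), fun hb => by
      have h1 := mem_sphere.1 hz.1
      have h2 := mem_closedBall.1 hb
      linarith⟩
  have hLo := h.closed.isOpen_compl
  obtain ⟨ψ, M, T, hT, hTW, hST, hψ, hψb, hψ1, hψ0⟩ :=
    cutoff hS (hLo.sdiff isClosed_closedBall) hSW
  obtain ⟨T', hT', hT'L, htr⟩ := lc_transfer Lᶜ hLo _ hS (hSW.trans sdiff_subset)
  have hev : ∀ C, IsCompact C → C ⊆ Lᶜ → ∀ᶠ n in atTop, C ⊆ Ω n \ K n := fun C hC hCL => by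
    filter_upwards [hs.ev_compact hC, h.up C hC (subset_compl_iff_disjoint_right.1 hCL)]
      with n h1 h2 z hz
    exact ⟨h1 hz, Set.disjoint_left.1 h2 hz⟩
  obtain ⟨cn, hcn, hcv⟩ := const Lᶜ hLo u v h.diff (fun C hC hCL =>
    (hev C hC hCL).mono fun n hn z hz => (hs.am n).diff z (hn hz)) h.grad
  obtain ⟨τ, hτ, e3⟩ : ∃ τ : ℝ, 0 < τ ∧
      (1 + 1 / β) * ((1 + M) * τ) ^ 2 * (Real.pi * ρ ^ 2) ≤ η / 4 := by
    have hc : ContinuousAt
        (fun τ : ℝ => (1 + 1 / β) * ((1 + M) * τ) ^ 2 * (Real.pi * ρ ^ 2)) 0 := by fun_prop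
    have h1 := hc.eventually_lt (continuousAt_const (y := η / 4)) (by simpa using hη)
    obtain ⟨τ, h2, h3⟩ := ((h1.filter_mono nhdsWithin_le_nhds).and
      (self_mem_nhdsWithin : Ioi (0 : ℝ) ∈ 𝓝[>] (0 : ℝ))).exists
    exact ⟨τ, h3, h2.le⟩
  have hTL : T ⊆ Lᶜ := hTW.trans sdiff_subset
  have t1 := Metric.tendstoUniformlyOn_iff.1
    ((tendstoLocallyUniformlyOn_iff_forall_isCompact hLo).1 hcv T hTL hT) τ hτ
  have t2 := Metric.tendstoUniformlyOn_iff.1
    ((tendstoLocallyUniformlyOn_iff_forall_isCompact hLo).1 h.grad T hTL hT) τ hτ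
  have t3 : ∀ᶠ n in atTop, ε n * ρ * √ρ < η / 4 := by
    have := (hs.eps.mul_const ρ).mul_const √ρ
    rw [zero_mul, zero_mul] at this
    exact this.eventually_lt_const (by positivity)
  have hvl := (smooth_of_holo hLo h.diff h.holo).2.2.2
  filter_upwards [hs.ev_ball y ρ, hev T hT hTL, hev T' hT' hT'L, t1, t2, t3]
    with n g1 g2 g3 g4 g5 g6
  obtain ⟨w', L'', c1, c2, c3, c4⟩ := glue_comp (hs.am n).toAM0 h.closed h.diff hvl hρ hτ.le g1 hc
    hT.isClosed hTW g2 hST hψ hψb hψ1 hψ0 (hcn n) (fun z hz => by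
      have a1 := g4 z hz
      have a2 := g5 z hz
      rw [dist_comm, Real.dist_eq] at a1
      rw [dist_comm, dist_eq_norm] at a2
      exact ⟨a1.le, a2.le⟩) fun c₁ h1 => htr _ c₁ g3 h1
  have k1 := (hs.am n).min y ρ w' L'' hρ0 g1 c1
  have k2 := glue_energy hρ0 hβ (by positivity) hc.closed c2 c3 c4
  have e4 : ENNReal.ofReal η = ENNReal.ofReal (η / 4) + ENNReal.ofReal (η / 4) +
      ENNReal.ofReal (η / 4) + ENNReal.ofReal (η / 4) := by
    rw [← ENNReal.ofReal_add (by positivity) (by positivity),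
      ← ENNReal.ofReal_add (by positivity) (by positivity),
      ← ENNReal.ofReal_add (by positivity) (by positivity)]
    congr 1
    ring
  refine k1.trans ((add_le_add (k2.trans (add_le_add (add_le_add (add_le_add le_rfl e1)
    (ENNReal.ofReal_le_ofReal e3)) e2)) (ENNReal.ofReal_le_ofReal g6.le)).trans_eq ?_)
  rw [e4]
  ring

end Vale.Agent.P128
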