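import Vale.Agent.P128.Defs

/-! P128 C/Gron (TASK): two elementary lemmas for the density bound.

Plan for `gron`. Fix `δ > 0` and let `φ r = θ r - 2 ε r √r - δ r^2`. Let
`A = {r ∈ Icc r₁ R | φ r ≤ m r}`, `s = sSup A`. Then `s ∈ A` (monotonicity of `m` and continuity
of `φ`). If `s < R`: `φ` has derivative `θ - 3 ε √s - 2 δ s` at `s`, which is strictly smaller than
`min 1 (φ s / s - ε √s)`; so for `b > s` close to `s`,
`φ b - φ s ≤ (b - s) * min 1 (φ s / b - ε √b) ≤ (b - s) * min 1 (m s / b - ε √b) ≤ m b - m s`,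
hence `b ∈ A`, a contradiction. Let `δ → 0`.

Plan for `start`. Otherwise the finite measure `ν = μH[1].restrict (K ∩ ball x s)` satisfies
`ν S ≤ θ * ediam S` whenever `ediam S ≤ s`: if `S` meets `ball x s` in `y` then
`S ⊆ closedBall y (diam S)`; if `diam S = 0` then `S` is a subsingleton and `μH[1]` has no atoms
(`Measure.noAtoms_hausdorff`). `Measure.le_hausdorffMeasure` applied to `θ⁻¹ • ν` gives
`ν (K ∩ ball x s) ≤ θ * μH[1] (K ∩ ball x s)`, impossible for a positive finite number. -/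

namespace Vale.Agent.P128

open MeasureTheory Set Metric Filter Topology
open scoped ENNReal

theorem gron_step {u v ε θ δ : ℝ} (hu : 0 < u) (huv : u < v) (hε : 0 ≤ ε) (hθ : θ ≤ 1)
    (hδ : 0 ≤ δ) (hh : v ^ 2 - u ^ 2 ≤ δ * (v ^ 2) ^ 2) :
    θ * v ^ 2 - 2 * ε * v * v ^ 2 - δ * (v ^ 2) ^ 2 -
      (θ * u ^ 2 - 2 * ε * u * u ^ 2 - δ * (u ^ 2) ^ 2) ≤ (v ^ 2 - u ^ 2) *
      min 1 ((θ * u ^ 2 - 2 * ε * u * u ^ 2 - δ * (u ^ 2) ^ 2) / v ^ 2 - ε * v) := by
  have hv : 0 < v := hu.trans huv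
  have h2 : u ^ 2 ≤ v ^ 2 := pow_le_pow_left₀ hu.le huv.le 2
  have h2' : 0 ≤ v ^ 2 - u ^ 2 := sub_nonneg.2 h2
  rw [mul_min_of_nonneg _ _ h2']
  refine le_min ?_ ?_
  · have h3 := mul_le_mul_of_nonneg_left (pow_le_pow_left₀ hu.le huv.le 3) hε
    have h4 := mul_le_mul_of_nonneg_left (pow_le_pow_left₀ (sq_nonneg u) h2 2) hδ
    have h5 := mul_le_mul_of_nonneg_right hθ h2'
    nlinarith
  · refine le_of_mul_le_mul_right ?_ (pow_pos hv 2)
    have e : (v ^ 2 - u ^ 2) *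
        ((θ * u ^ 2 - 2 * ε * u * u ^ 2 - δ * (u ^ 2) ^ 2) / v ^ 2 - ε * v) * v ^ 2 =
        (v ^ 2 - u ^ 2) * (θ * u ^ 2 - 2 * ε * u * u ^ 2 - δ * (u ^ 2) ^ 2 - ε * v * v ^ 2) := by
      field_simp
    have h3 : 0 ≤ ε * ((v - u) ^ 2 * (v ^ 3 + 2 * u * v ^ 2 + 4 * u ^ 2 * v + 2 * u ^ 3)) := by
      positivity
    have h4 : 0 ≤ (1 - θ) * (v ^ 2 - u ^ 2) ^ 2 := mul_nonneg (sub_nonneg.2 hθ) (sq_nonneg _)
    have h5 := mul_le_mul_of_nonneg_left hh h2'
    have h6 : 0 ≤ δ * (u ^ 2 * (v ^ 2 - u ^ 2) ^ 2) := by positivity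
    rw [e]
    nlinarith

theorem gron (m : ℝ → ℝ) (r₁ R ε θ : ℝ) (h1 : 0 < r₁) (hR : r₁ ≤ R) (hε : 0 ≤ ε) (hθ : θ ≤ 1)
    (hm : MonotoneOn m (Icc r₁ R))
    (hineq : ∀ a b, r₁ ≤ a → a < b → b ≤ R → (b - a) * min 1 (m a / b - ε * √b) ≤ m b - m a)
    (h0 : θ * r₁ ≤ m r₁) : (θ - 2 * ε * √R) * R ≤ m R := by
  have key : ∀ δ : ℝ, 0 < δ → ∀ n : ℕ, ∀ b, r₁ ≤ b → b ≤ R → b ≤ r₁ + n * (δ * r₁ ^ 2) →
      θ * b - 2 * ε * √b * b - δ * b ^ 2 ≤ m b := by
    intro δ hδ n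
    induction n with
    | zero =>
      intro b hb _ hb'
      obtain rfl : b = r₁ := le_antisymm (by simpa using hb') hb
      have : 0 ≤ 2 * ε * √b * b + δ * b ^ 2 := by positivity
      linarith
    | succ n ih =>
      intro b hb hbR hb'
      rcases le_or_gt b (r₁ + n * (δ * r₁ ^ 2)) with h | h
      · exact ih b hb hbR h
      set s := r₁ + n * (δ * r₁ ^ 2) with hs
      have hs1 : r₁ ≤ s := le_add_of_nonneg_right (by positivity)
      have hs0 : 0 < s := h1.trans_le hs1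
      have hb0 : 0 < b := hs0.trans h
      have h2 := ih s hs1 (h.le.trans hbR) le_rfl
      have h3 := hineq s b hs1 h hbR
      have h4 : b - s ≤ δ * b ^ 2 := by
        have := mul_le_mul_of_nonneg_left (pow_le_pow_left₀ h1.le hb 2) hδ.le
        push_cast at hb'
        linarith
      have h5 := gron_step (θ := θ) (δ := δ) (Real.sqrt_pos.2 hs0) (Real.sqrt_lt_sqrt hs0.le h) hε hθ
        hδ.le (by rw [Real.sq_sqrt hs0.le, Real.sq_sqrt hb0.le]; exact h4)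
      rw [Real.sq_sqrt hs0.le, Real.sq_sqrt hb0.le] at h5
      have h6 := mul_le_mul_of_nonneg_left (min_le_min_left 1 (sub_le_sub_right
        (div_le_div_of_nonneg_right h2 hb0.le) (ε * √b))) (sub_nonneg.2 h.le)
      linarith
  have hR0 : 0 < R := h1.trans_le hR
  refine le_of_forall_pos_le_add fun η hη => ?_
  have hδ : 0 < η / R ^ 2 := by positivity
  obtain ⟨n, hn⟩ := exists_nat_ge (R / (η / R ^ 2 * r₁ ^ 2))
  rw [div_le_iff₀ (by positivity)] at hn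
  have h2 := key _ hδ n R hR le_rfl (by linarith)
  rw [div_mul_cancel₀ _ (by positivity)] at h2
  linarith

theorem start (K : Set ℂ) (hK : MeasurableSet K) (x : ℂ) (s : ℝ) (hs : 0 < s)
    (h0 : 0 < μH[1] (K ∩ ball x s)) (hfin : μH[1] (K ∩ ball x s) < ∞) (θ : ℝ) (hθ0 : 0 < θ)
    (hθ : θ < 1) : ∃ y ∈ ball x s, ∃ r : ℝ, 0 < r ∧ r ≤ s ∧
      ENNReal.ofReal (θ * r) ≤ μH[1] (K ∩ closedBall y r) := by
  by_contra hne
  push Not at hne
  have := Measure.nullSingletonClass_hausdorff ℂ one_pos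
  have hA : MeasurableSet (K ∩ ball x s) := hK.inter measurableSet_ball
  have t0 : ENNReal.ofReal θ ≠ 0 := (ENNReal.ofReal_pos.2 hθ0).ne'
  have h1 := Measure.le_hausdorffMeasure 1
    ((ENNReal.ofReal θ)⁻¹ • (μH[1] : Measure ℂ).restrict (K ∩ ball x s)) (ENNReal.ofReal s)
    (ENNReal.ofReal_pos.2 hs) fun S hS => by
      rw [Measure.smul_apply, Measure.restrict_apply' hA, smul_eq_mul, ENNReal.rpow_one,
        ENNReal.inv_mul_le_iff t0 ENNReal.ofReal_ne_top]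
      have hT : ediam S ≠ ⊤ := ne_top_of_le_ne_top ENNReal.ofReal_ne_top hS
      rcases (S ∩ (K ∩ ball x s)).eq_empty_or_nonempty with h | ⟨y, hy⟩
      · rw [h, measure_empty]
        exact zero_le
      by_cases hz : ediam S = 0
      · rw [((ediam_eq_zero_iff.1 hz).anti inter_subset_left).measure_zero]
        exact zero_le
      have h2 := hne y hy.2.2 (diam S) (ENNReal.toReal_pos hz hT)
        (ENNReal.toReal_le_of_le_ofReal hs.le hS)
      rw [ENNReal.ofReal_mul hθ0.le, diam, ENNReal.ofReal_toReal hT] at h2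
      exact le_trans (measure_mono fun z hz =>
        mem_inter hz.2.1 (dist_le_diam_of_mem' hT hz.1 hy.1)) h2.le
  have h2 := h1 (K ∩ ball x s)
  rw [Measure.smul_apply, Measure.restrict_apply_self, smul_eq_mul,
    ENNReal.inv_mul_le_iff t0 ENNReal.ofReal_ne_top] at h2
  have h3 := ENNReal.mul_lt_mul_left h0.ne' hfin.ne (ENNReal.ofReal_lt_one.2 hθ)
  rw [one_mul] at h3
  exact h3.not_ge h2

end Vale.Agent.P128
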