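import Vale.Agent.P128.Defs

/-! P128 C/Kur (TASK): every sequence of sets has a Kuratowski convergent subsequence.

Plan. Let `q : ℕ → ℂ` be `TopologicalSpace.denseSeq ℂ`. The sequence
`n ↦ (j ↦ Metric.infEDist (q j) (K n))` lives in the compact metrizable space `ℕ → ℝ≥0∞`
(`CompactSpace.tendsto_subseq`), so along `φ` it converges to some `d : ℕ → ℝ≥0∞`
(`tendsto_pi_nhds`). Put `L = {z | ∀ j, d j ≤ edist (q j) z}` (closed: intersection of closed
sets). `low`: for `z ∈ L` take `j` with `dist (q j) z < η/3`; then `d j < 2η/3`, so eventually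
`infEDist (q j) (K (φ n)) < 2η/3`, which gives a point of `K (φ n)` in `ball z η`
(`infEDist_lt_iff`). `up`: for `z ∉ L` there is `j` with `edist (q j) z < d j`; choose a real
`a` with `edist (q j) z < a < d j`; eventually `a < infEDist (q j) (K (φ n))`, so the open ball
`eball (q j) a`, a neighbourhood of `z`, misses `K (φ n)`. Finish with `IsCompact.induction_on`
or a finite subcover. -/

namespace Vale.Agent.P128

open MeasureTheory Set Metric Filter Topology
open scoped ENNReal

theorem kuratowski (K : ℕ → Set ℂ) : ∃ φ : ℕ → ℕ, StrictMono φ ∧ ∃ L : Set ℂ, IsClosed L ∧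
    (∀ z ∈ L, ∀ η : ℝ, 0 < η → ∀ᶠ n in atTop, (K (φ n) ∩ ball z η).Nonempty) ∧
    ∀ C, IsCompact C → Disjoint C L → ∀ᶠ n in atTop, Disjoint C (K (φ n)) := by
  obtain ⟨q, hq⟩ : ∃ q : ℕ → ℂ, DenseRange q := ⟨_, TopologicalSpace.denseRange_denseSeq ℂ⟩
  obtain ⟨d, φ, hφ, hd⟩ := CompactSpace.tendsto_subseq
    (fun n j => Metric.infEDist (q j) (K n) : ℕ → ℕ → ℝ≥0∞)
  have hd' : ∀ j, Tendsto (fun n => Metric.infEDist (q j) (K (φ n))) atTop (𝓝 (d j)) :=
    fun j => tendsto_pi_nhds.1 hd j
  refine ⟨φ, hφ, {z | ∀ j, d j ≤ edist (q j) z}, ?_, fun z hz η hη => ?_, fun C hC hL => ?_⟩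
  · simp only [setOf_forall]
    exact isClosed_iInter fun j => isClosed_le continuous_const (continuous_const.edist continuous_id)
  · obtain ⟨j, hj⟩ := hq.exists_dist_lt z (half_pos hη)
    have h1 : d j < ENNReal.ofReal (η / 2) := (hz j).trans_lt (by
      rw [edist_lt_ofReal, dist_comm]
      exact hj)
    filter_upwards [(hd' j).eventually (gt_mem_nhds h1)] with n hn
    obtain ⟨y, hy, h2⟩ := Metric.infEDist_lt_iff.1 hn
    rw [edist_lt_ofReal] at h2
    refine ⟨y, hy, mem_ball'.2 ?_⟩
    linarith [dist_triangle z (q j) y]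
  · refine hC.induction_on (p := fun S => ∀ᶠ n in atTop, Disjoint S (K (φ n)))
      (Eventually.of_forall fun n => empty_disjoint _)
      (fun s t hst h => h.mono fun n hn => hn.mono_left hst)
      (fun s t hs ht => (hs.and ht).mono fun n hn => disjoint_union_left.2 hn) fun z hz => ?_
    have h1 : ¬∀ j, d j ≤ edist (q j) z := fun h => disjoint_left.1 hL hz h
    obtain ⟨j, hj⟩ := not_forall.1 h1
    obtain ⟨a, h2, h3⟩ := exists_between (not_le.1 hj)
    refine ⟨{y | edist (q j) y < a}, mem_nhdsWithin_of_mem_nhds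
      ((isOpen_lt (continuous_const.edist continuous_id) continuous_const).mem_nhds h2), ?_⟩
    filter_upwards [(hd' j).eventually (lt_mem_nhds h3)] with n hn
    exact disjoint_left.2 fun y hy hy' =>
      lt_asymm hy (hn.trans_le (Metric.infEDist_le_edist_of_mem hy'))

end Vale.Agent.P128
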