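import Vale.Agent.P128.C.Fatou
import Vale.Agent.P128.C.Conc

/-! P128 C/Lsc (TASK): lower semicontinuity of the length.

Plan for `bad_null`. Let `lam = (volume.restrict Lᶜ).withDensity (‖fderiv ℝ v ·‖ₑ^2)`, so that
`lam S = Dir v (S \ L)` for measurable `S`; `lam L = 0`. It suffices to treat `Bad ∩ ball 0 R` for
natural `R`. For `κ > 0` apply `cover` with the constant sequence `μ n = lam` (`liminf_const`),
`V = thickening κ L ∩ ball 0 R`: `ofReal (η/2) * μH[1] (Bad ∩ ball 0 R) ≤ lam V`, and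
`lam V = (lam.restrict (ball 0 R)) (thickening κ L) → 0` by `tendsto_measure_thickening_of_isClosed`
(finite by `hfin`).
Plan for `len_lsc`. Fix `δ ∈ (0,1)`; take `η` from `conc` for `c, δ`; put `η₁ = η / 20` and let
`Bad` be the null set of `bad_null` for `η₁^2`. Apply `cover` to `S = (L ∩ V) \ Bad`,
`μ n = μH[1].restrict (K n)`, `θ = (2 - δ) (1 - δ/2)`: for `x ∈ S` there are arbitrarily small `t`
with `Dir v (closedBall x t \ L) < ofReal (η₁^2 t)`; by `l1_le` and `l1_usc` (error `η₁ t √t`)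
eventually the `L¹` norm of the gradient of `u n` on `ball x t \ K n` is at most `6 η₁ t √t`; take
`y' ∈ K n ∩ ball x (δ t / 2)`, `t' = (1 - δ/2) t ≥ t/2`, so `closedBall y' t' ⊆ closedBall x t`,
`ball y' t' ⊆ ball x t`, `6 η₁ t √t ≤ η t' √t'` (as `t √t ≤ 2 √2 t' √t'`), and eventually
`ε n * √t' ≤ η`; `conc` gives the bound. Since `μH[1] (L ∩ V) ≤ μH[1] S + 0`, we get
`ofReal (θ/2) * μH[1] (L ∩ V) ≤ liminf`; let `δ → 0` (`ENNReal.le_of_forall_lt_one_mul_le`). -/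

namespace Vale.Agent.P128

open MeasureTheory Set Metric Filter Topology
open scoped ENNReal NNReal

variable {c : ℝ} {Ω : ℕ → Set ℂ} {ε : ℕ → ℝ} {wk : ℕ → Prop} {u : ℕ → ℂ → ℝ} {K : ℕ → Set ℂ}
  {v : ℂ → ℝ} {L : Set ℂ}

theorem Lsc_lam (v : ℂ → ℝ) (L : Set ℂ) {S : Set ℂ} (hS : MeasurableSet S) :
    ((volume.restrict Lᶜ).withDensity (fun z => ‖fderiv ℝ v z‖ₑ ^ 2)) S = Dir v (S \ L) := by
  rw [withDensity_apply _ hS, Measure.restrict_restrict hS]
  rfl

theorem Lsc_dir_mono (v : ℂ → ℝ) {S T : Set ℂ} (h : S ⊆ T) : Dir v S ≤ Dir v T :=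
  lintegral_mono_set h

theorem bad_null (hL : IsClosed L) (hfin : ∀ R : ℝ, 0 < R → Dir v (closedBall 0 R \ L) < ∞)
    {η : ℝ} (hη : 0 < η) :
    μH[1] {x ∈ L | ∃ δ : ℝ, 0 < δ ∧ ∀ t ∈ Ioo (0 : ℝ) δ,
      ENNReal.ofReal (η * t) ≤ Dir v (closedBall x t \ L)} = 0 := by
  set Bad := {x ∈ L | ∃ δ : ℝ, 0 < δ ∧ ∀ t ∈ Ioo (0 : ℝ) δ,
      ENNReal.ofReal (η * t) ≤ Dir v (closedBall x t \ L)} with hBad
  set lam := (volume.restrict Lᶜ).withDensity (fun z => ‖fderiv ℝ v z‖ₑ ^ 2) with hlam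
  have hR : ∀ R : ℝ, 0 < R → μH[1] (Bad ∩ ball 0 R) = 0 := by
    intro R hR
    have h1 : ∀ κ : ℝ, 0 < κ → ENNReal.ofReal (η / 2) * μH[1] (Bad ∩ ball 0 R) ≤
        (lam.restrict (ball 0 R)) (thickening κ L) := by
      intro κ hκ
      have := cover (Bad ∩ ball 0 R) (thickening κ L ∩ ball 0 R)
        (isOpen_thickening.inter isOpen_ball)
        (fun x hx => ⟨self_subset_thickening hκ L hx.1.1, hx.2⟩) (fun _ => lam) η hη
        (fun x hx δ hδ => by
          obtain ⟨δ', hδ', h'⟩ := hx.1.2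
          have hm : 0 < min δ δ' := lt_min hδ hδ'
          refine ⟨min δ δ' / 2, ⟨half_pos hm, (half_lt_self hm).trans_le (min_le_left _ _)⟩,
            Eventually.of_forall fun n => ?_⟩
          rw [hlam, Lsc_lam v L measurableSet_closedBall]
          exact h' _ ⟨half_pos hm, (half_lt_self hm).trans_le (min_le_right _ _)⟩)
      rwa [liminf_const, ← Measure.restrict_apply isOpen_thickening.measurableSet] at this
    have h2 : Tendsto (fun κ => (lam.restrict (ball 0 R)) (thickening κ L)) (𝓝[>] 0)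
        (𝓝 ((lam.restrict (ball 0 R)) L)) := by
      refine tendsto_measure_thickening_of_isClosed ⟨1, one_pos, ?_⟩ hL
      rw [Measure.restrict_apply isOpen_thickening.measurableSet, hlam,
        Lsc_lam v L (isOpen_thickening.inter isOpen_ball).measurableSet]
      exact ((Lsc_dir_mono v (sdiff_subset_sdiff_left
        (inter_subset_right.trans ball_subset_closedBall))).trans_lt (hfin R hR)).ne
    have h3 : (lam.restrict (ball 0 R)) L = 0 := by
      rw [Measure.restrict_apply hL.measurableSet, hlam,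
        Lsc_lam v L (hL.measurableSet.inter measurableSet_ball),
        sdiff_eq_empty.2 inter_subset_left, Dir, Measure.restrict_empty, lintegral_zero_measure]
    rw [h3] at h2
    have h4 := ge_of_tendsto h2 (eventually_mem_nhdsWithin.mono fun κ hκ => h1 κ hκ)
    rcases mul_eq_zero.1 (le_zero_iff.1 h4) with h5 | h5
    · exact absurd (ENNReal.ofReal_eq_zero.1 h5) (not_le.2 (half_pos hη))
    · exact h5
  refine measure_mono_null (t := ⋃ k : ℕ, Bad ∩ ball 0 ((k : ℝ) + 1)) (fun x hx => ?_)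
    (measure_iUnion_null fun k => hR _ (by positivity))
  obtain ⟨k, hk⟩ := exists_nat_gt (dist x 0)
  exact mem_iUnion.2 ⟨k, hx, mem_ball.2 (by linarith)⟩

theorem Lsc_num {η t t' : ℝ} (hη : 0 < η) (ht : 0 < t) (h : t ≤ 2 * t') :
    5 * (η / 20) * t * √t + η / 20 * t * √t ≤ η * t' * √t' := by
  have h0 : 0 < t' := by linarith
  have h1 : √t ≤ 3 / 2 * √t' := by
    rw [Real.sqrt_le_left (by positivity), mul_pow, Real.sq_sqrt h0.le]
    linarith
  have h2 : t * √t ≤ 2 * t' * (3 / 2 * √t') :=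
    mul_le_mul h h1 (Real.sqrt_nonneg _) (by positivity)
  have h3 : 0 ≤ t' * √t' := by positivity
  have h4 : 6 / 20 * (t * √t) ≤ t' * √t' := by linarith
  have h5 := mul_le_mul_of_nonneg_left h4 hη.le
  linarith

theorem Lsc_step (hs : Seq c Ω ε wk u K) (h : Conv0 u K v L) {δ η : ℝ} (hδ : 0 < δ) (hδ1 : δ ≤ 1)
    (hη : 0 < η)
    (hc : ∀ (Ω : Set ℂ) (ε : ℝ) (wk : Prop) (u : ℂ → ℝ) (K : Set ℂ), AM Ω ε wk c u K →
      ∀ y ∈ K, ∀ t : ℝ, 0 < t → closedBall y t ⊆ Ω → ε * √t ≤ η →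
      (∫⁻ z in ball y t \ K, ‖fderiv ℝ u z‖ₑ) ≤ ENNReal.ofReal (η * t * √t) →
      ENNReal.ofReal ((2 - δ) * t) ≤ μH[1] (K ∩ ball y t))
    {x : ℂ} (hx : x ∈ L) {t : ℝ} (ht : 0 < t)
    (hD : Dir v (closedBall x t \ L) ≤ ENNReal.ofReal ((η / 20) ^ 2 * t)) :
    ∀ᶠ n in atTop, ENNReal.ofReal ((2 - δ) * (1 - δ / 2) * t) ≤
      (μH[1] : Measure ℂ).restrict (K n) (closedBall x t) := by
  have hη1 : 0 < η / 20 := by positivity
  have hst : 0 < √t := Real.sqrt_pos.2 ht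
  have h1 := l1_le v L x ht hη1
    ((Lsc_dir_mono v (sdiff_subset_sdiff_left ball_subset_closedBall)).trans hD)
  have h2 := l1_usc hs h x (η := η / 20 * t * √t) ht (by positivity)
  have h3 := h.low x hx (δ / 2 * t) (by positivity)
  have h4 := hs.ev_ball x t
  have h5 : ∀ᶠ n in atTop, ε n * √((1 - δ / 2) * t) < η := by
    have := hs.eps.mul_const √((1 - δ / 2) * t)
    rw [zero_mul] at this
    exact this.eventually_lt_const hη
  have ht' : 0 < (1 - δ / 2) * t := mul_pos (by linarith) ht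
  have ht2 : t ≤ 2 * ((1 - δ / 2) * t) := by nlinarith
  filter_upwards [h2, h3, h4, h5] with n g2 g3 g4 g5
  obtain ⟨y, hy, hy'⟩ := g3
  have hd : (1 - δ / 2) * t + dist y x ≤ t := by
    have := mem_ball.1 hy'
    linarith
  have s1 : closedBall y ((1 - δ / 2) * t) ⊆ closedBall x t := closedBall_subset_closedBall' hd
  have s2 : ball y ((1 - δ / 2) * t) ⊆ ball x t := ball_subset_ball' hd
  have g6 : (∫⁻ z in ball y ((1 - δ / 2) * t) \ K n, ‖fderiv ℝ (u n) z‖ₑ) ≤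
      ENNReal.ofReal (η * ((1 - δ / 2) * t) * √((1 - δ / 2) * t)) := by
    refine (lintegral_mono_set (sdiff_subset_sdiff_left s2)).trans (g2.trans ?_)
    refine (add_le_add_left h1 _).trans ?_
    rw [← ENNReal.ofReal_add (by positivity) (by positivity)]
    exact ENNReal.ofReal_le_ofReal (Lsc_num hη ht ht2)
  have g7 := hc _ _ _ _ _ (hs.am n) y hy _ ht' (s1.trans g4) g5.le g6
  rw [Measure.restrict_apply measurableSet_closedBall, mul_assoc]
  exact g7.trans (measure_mono fun z hz => ⟨s1 (ball_subset_closedBall hz.2), hz.1⟩)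

theorem len_lsc (hs : Seq c Ω ε wk u K) (h : Conv0 u K v L) {V : Set ℂ} (hV : IsOpen V) :
    μH[1] (L ∩ V) ≤ liminf (fun n => μH[1] (K n ∩ V)) atTop := by
  refine ENNReal.le_of_forall_lt_one_mul_le fun a ha => ?_
  have ha' : a ≠ ∞ := (ha.trans ENNReal.one_lt_top).ne
  have ha1 : a.toReal < 1 := by
    have := (ENNReal.toReal_lt_toReal ha' ENNReal.one_ne_top).2 ha
    rwa [ENNReal.toReal_one] at this
  obtain ⟨δ, hδ, hδ1, hδa⟩ : ∃ δ : ℝ, 0 < δ ∧ δ ≤ 1 ∧ a.toReal ≤ (2 - δ) * (1 - δ / 2) / 2 :=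
    ⟨1 - a.toReal, by linarith, by linarith [ENNReal.toReal_nonneg (a := a)],
      by nlinarith [sq_nonneg (1 - a.toReal)]⟩
  obtain ⟨η, hη, hc⟩ := conc (hs.am 0).cpos (hs.am 0).cle hδ
  have hb := bad_null (v := v) h.closed
    (fun R hR => (lim_dir hs h 0 hR).trans_lt ENNReal.ofReal_lt_top)
    (η := (η / 20) ^ 2) (by positivity)
  set Bad := {x ∈ L | ∃ δ : ℝ, 0 < δ ∧ ∀ t ∈ Ioo (0 : ℝ) δ,
      ENNReal.ofReal ((η / 20) ^ 2 * t) ≤ Dir v (closedBall x t \ L)} with hBad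
  have key := cover ((L ∩ V) \ Bad) V hV (fun x hx => hx.1.2)
    (fun n => (μH[1] : Measure ℂ).restrict (K n)) ((2 - δ) * (1 - δ / 2))
    (mul_pos (by linarith) (by linarith)) (fun x hx d hd => by
      have h1 : ¬ ∀ t ∈ Ioo (0 : ℝ) d,
          ENNReal.ofReal ((η / 20) ^ 2 * t) ≤ Dir v (closedBall x t \ L) :=
        fun h2 => hx.2 ⟨hx.1.1, d, hd, h2⟩
      push Not at h1
      obtain ⟨t, ht, h2⟩ := h1
      exact ⟨t, ht, Lsc_step hs h hδ hδ1 hη hc hx.1.1 ht.1 h2.le⟩)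
  rw [measure_sdiff_null hb] at key
  simp only [Measure.restrict_apply hV.measurableSet, inter_comm V] at key
  refine le_trans (mul_le_mul_left ?_ _) key
  rw [← ENNReal.ofReal_toReal ha']
  exact ENNReal.ofReal_le_ofReal hδa

end Vale.Agent.P128
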