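import Vale.Agent.P128.C.Glue2
import Vale.Agent.P128.C.Lsc

/-! P128 C/LimA (TASK): the limit is a minimizer.

Plan. `comp_self`: `smooth_of_holo` for `lip` (`compl_eq_univ_diff`); `sep` with `c' = c`.
`lim_en_fin`: `lim_dir` and `lim_len` (radius `r + 1`).
`lim_en_lsc`: `Conv0.dir_lsc`, `len_lsc` and superadditivity of liminf in `ℝ≥0∞`
(`le_liminf_add` or: for `a < Dir ..`, `b < μH ..` use `eventually_lt_of_lt_liminf`).
`lim_min`: take `ρ ∈ Ioo r (r + 1)` from `null_sphere`. Then
`En v L (closedBall y ρ) = En v L (ball y ρ)` (the sphere is null for both measures)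
`≤ liminf En (u n) (K n) (ball y ρ) ≤ En w L' (closedBall y ρ) + η` by `glue` and `En_mono`.
By `En_split` both sides split into `closedBall y r` and the annulus
`A = closedBall y ρ \ closedBall y r`, and `En w L' A = En v L A` (`hc.eqL`; `w = v` on the open
set `Lᶜ \ closedBall y r`, so the derivatives agree there), a finite number: cancel
(`ENNReal.add_le_add_iff_right`). -/

namespace Vale.Agent.P128

open MeasureTheory Set Metric Filter Topology
open scoped ENNReal NNReal

variable {c : ℝ} {Ω : ℕ → Set ℂ} {ε : ℕ → ℝ} {wk : ℕ → Prop} {u : ℕ → ℂ → ℝ} {K : ℕ → Set ℂ}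
  {v : ℂ → ℝ} {L : Set ℂ}

theorem comp_self (h : Conv0 u K v L) (y : ℂ) (r : ℝ) : Comp univ True v L y r v L := by
  refine ⟨h.closed, rfl, fun _ _ _ => rfl, ?_, fun _ c hc => ⟨c, hc, fun _ _ _ => rfl⟩⟩
  rw [← compl_eq_univ_sdiff]
  exact (smooth_of_holo h.closed.isOpen_compl h.diff h.holo).2.2.2

theorem lim_en_fin (hs : Seq c Ω ε wk u K) (h : Conv0 u K v L) (y : ℂ) {r : ℝ} (hr : 0 < r) :
    Dir v (closedBall y r \ L) < ∞ ∧ μH[1] (L ∩ closedBall y r) < ∞ ∧
      En v L (closedBall y r) < ∞ := by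
  have h1 := (lim_dir hs h y hr).trans_lt ENNReal.ofReal_lt_top
  have h2 : μH[1] (L ∩ closedBall y r) < ∞ :=
    ((measure_mono (inter_subset_inter_right _ (closedBall_subset_ball (lt_add_one r)))).trans
      (lim_len hs h y (by linarith))).trans_lt ENNReal.ofReal_lt_top
  exact ⟨h1, h2, ENNReal.add_lt_top.2 ⟨h1, h2⟩⟩

theorem LimA_add (f g : ℕ → ℝ≥0∞) :
    liminf f atTop + liminf g atTop ≤ liminf (fun n => f n + g n) atTop := by
  rw [liminf_eq_iSup_iInf_of_nat (u := f), liminf_eq_iSup_iInf_of_nat (u := g)]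
  refine ENNReal.iSup_add_iSup_le fun i j => le_liminf_of_le (by isBoundedDefault) ?_
  filter_upwards [eventually_ge_atTop i, eventually_ge_atTop j] with n h1 h2
  exact add_le_add (iInf₂_le n h1) (iInf₂_le n h2)

theorem lim_en_lsc (hs : Seq c Ω ε wk u K) (h : Conv0 u K v L) {V : Set ℂ} (hV : IsOpen V) :
    En v L V ≤ liminf (fun n => En (u n) (K n) V) atTop :=
  (add_le_add (h.dir_lsc (fun n => (hs.am n).closed) hV.measurableSet) (len_lsc hs h hV)).trans
    (LimA_add _ _)

theorem LimA_sphere {y : ℂ} {ρ : ℝ} (h : μH[1] (L ∩ sphere y ρ) = 0) :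
    En v L (closedBall y ρ) = En v L (ball y ρ) := by
  have h1 : Dir v (sphere y ρ \ L) = 0 :=
    setLIntegral_measure_zero _ _ (measure_mono_null sdiff_subset (Measure.addHaar_sphere _ y ρ))
  rw [En_split v L measurableSet_ball measurableSet_closedBall ball_subset_closedBall,
    closedBall_sdiff_ball, En.eq_1 v L (sphere y ρ), h1, h, add_zero, add_zero]

theorem LimA_out (hL : IsClosed L) {y : ℂ} {r : ℝ} {w : ℂ → ℝ} {L' A : Set ℂ}
    (hc : Comp univ True v L y r w L') (hA : MeasurableSet A) :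
    En w L' (A \ closedBall y r) = En v L (A \ closedBall y r) := by
  have e : ∀ z, z ∉ closedBall y r → (z ∈ L' ↔ z ∈ L) := fun z hz =>
    ⟨fun h => (hc.eqL.le ⟨h, hz⟩).1, fun h => (hc.eqL.ge ⟨h, hz⟩).1⟩
  have e1 : (A \ closedBall y r) \ L' = (A \ closedBall y r) \ L :=
    Set.ext fun z => and_congr_right fun hz => (e z hz.2).not
  have e2 : L' ∩ (A \ closedBall y r) = L ∩ (A \ closedBall y r) :=
    Set.ext fun z => and_congr_left fun hz => e z hz.2
  rw [← En_congr (w := w) hL (hA.diff measurableSet_closedBall) fun z hz => ?_, En, En, e1, e2]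
  refine EventuallyEq.fderiv_eq ?_
  filter_upwards [hL.isOpen_compl.mem_nhds hz.2, isClosed_closedBall.isOpen_compl.mem_nhds hz.1.2]
    with p h1 h2
  exact hc.eqw p ⟨mem_univ p, h1⟩ h2

theorem lim_min (hs : Seq c Ω ε wk u K) (h : Conv0 u K v L) (y : ℂ) (r : ℝ) (w : ℂ → ℝ)
    (L' : Set ℂ) (hr : 0 < r) (hc : Comp univ True v L y r w L') :
    En v L (closedBall y r) ≤ En w L' (closedBall y r) := by
  obtain ⟨ρ, ⟨h1, -⟩, h2⟩ := null_sphere h.closed y (lt_add_one r)
    (lim_en_fin hs h y (by linarith)).2.1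
  have key : En v L (closedBall y ρ) ≤ En w L' (closedBall y ρ) := by
    refine ENNReal.le_of_forall_pos_le_add fun η hη _ => ?_
    rw [LimA_sphere h2, ← ENNReal.ofReal_coe_nnreal]
    refine (lim_en_lsc hs h isOpen_ball).trans (liminf_le_of_frequently_le' ?_)
    exact ((glue hs h hr h1 hc (η := η) hη).mono fun n hn =>
      (En_mono _ _ ball_subset_closedBall).trans hn).frequently
  have sub := closedBall_subset_closedBall (x := y) h1.le
  rw [En_split v L measurableSet_closedBall measurableSet_closedBall sub,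
    En_split w L' measurableSet_closedBall measurableSet_closedBall sub,
    LimA_out h.closed hc measurableSet_closedBall] at key
  exact (ENNReal.add_le_add_iff_right ((En_mono v L sdiff_subset).trans_lt
    (lim_en_fin hs h y (hr.trans h1)).2.2).ne).1 key

end Vale.Agent.P128
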