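import Vale.Agent.P128.C.EnM

/-! P128 C/Trunc (TASK): the truncation competitor.

Plan. Let `T x = max (-G) (min G x)` (1-Lipschitz, `|T x| ≤ G`, `T x = x` if `|x| ≤ G`),
`ψ z = max 0 (min 1 ((dist z y - (1 - σ) * s) / (σ * s)))` (Lipschitz with constant `1/(σ s)`,
zero on `ball y ((1-σ) s)`, one on the sphere of radius `s`),
`f z = a + ψ z * T (u z - a)`, `w z = if z ∈ closedBall y s then f z else u z`,
`L = K \ ball y ((1-σ) s)`. Then `Comp Ω wk u K y s w L`:
* `lip`: `locLip_glue` with `f` and `u`; `f` is locally Lipschitz on `Ω \ K` by `locLip_trunc` and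
  `smooth_of_holo`, and constant on the open ball of radius `(1-σ) s`;
* `sep`: given `c`, let `c₀` be its value on `sphere y s \ K` (`LC.const`, any value if the set
  is empty) and `c' z = if z ∈ closedBall y s then c₀ else c z`.
Energy: `fderiv w = 0` on `ball y ((1-σ) s)`; on `ball y s \ K`,
`‖fderiv w z‖ ≤ ‖fderiv u z‖ + G / (σ s)` by `norm_fderiv_trunc` (and `EventuallyEq.fderiv_eq`);
the sphere is null (`Measure.addHaar_sphere`); `(p + q)^2 ≤ 2 p^2 + 2 q^2`; the area of the annulus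
is `π s^2 (1 - (1-σ)^2) ≤ 2 π σ s^2` (`Complex.volume_closedBall`, `Complex.volume_ball`,
`measure_diff`). Finish with `h.min`. -/

namespace Vale.Agent.P128

open MeasureTheory Set Metric Filter Topology
open scoped ENNReal NNReal

theorem Trunc_T {G : ℝ} (hG : 0 ≤ G) : ∃ T : ℝ → ℝ, LipschitzWith 1 T ∧ (∀ x, |T x| ≤ G) ∧
    ∀ x, |x| ≤ G → T x = x :=
  ⟨fun x => max (-G) (min G x), (LipschitzWith.id.const_min G).const_max (-G),
    fun _ => abs_le.2 ⟨le_max_left _ _, max_le (by linarith) (min_le_left _ _)⟩,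
    fun _ hx => by
      simp only [min_eq_right (abs_le.1 hx).2, max_eq_right (abs_le.1 hx).1]⟩

theorem Trunc_psi (y : ℂ) (ρ : ℝ) {d : ℝ} (hd : 0 < d) : ∃ (ψ : ℂ → ℝ) (M : ℝ≥0), (M : ℝ) = 1 / d ∧
    LipschitzWith M ψ ∧ (∀ p, |ψ p| ≤ 1) ∧ (∀ p ∈ ball y ρ, ψ p = 0) ∧
      ∀ p ∈ sphere y (ρ + d), ψ p = 1 := by
  have h1 : LipschitzWith (NNReal.mk (1 / d) (by positivity)) fun z => (dist z y - ρ) / d := by
    refine LipschitzWith.of_dist_le_mul fun p q => ?_
    rw [Real.dist_eq, ← sub_div, abs_div, abs_of_pos hd, sub_sub_sub_cancel_right, NNReal.coe_mk,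
      one_div_mul_eq_div]
    exact div_le_div_of_nonneg_right (abs_dist_sub_le p q y) hd.le
  refine ⟨fun z => max 0 (min 1 ((dist z y - ρ) / d)), _, rfl, (h1.const_min 1).const_max 0,
    fun p => abs_le.2 ⟨by linarith [le_max_left 0 (min 1 ((dist p y - ρ) / d))],
      max_le zero_le_one (min_le_left _ _)⟩, fun p hp => ?_, fun p hp => ?_⟩
  · exact max_eq_left (min_le_of_right_le
      (div_nonpos_of_nonpos_of_nonneg (sub_nonpos.2 (mem_ball.1 hp).le) hd.le))
  · simp only [mem_sphere.1 hp, add_sub_cancel_left, div_self hd.ne', min_self,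
      max_eq_right zero_le_one]

theorem Trunc_sq {A B : ℂ →L[ℝ] ℝ} {N : ℝ} (h : ‖A‖ ≤ ‖B‖ + N) :
    ‖A‖ₑ ^ 2 ≤ 2 * ‖B‖ₑ ^ 2 + ENNReal.ofReal (2 * N ^ 2) := by
  rw [← ofReal_norm, ← ofReal_norm, ← ENNReal.ofReal_pow (norm_nonneg _),
    ← ENNReal.ofReal_pow (norm_nonneg _), ← ENNReal.ofReal_ofNat 2,
    ← ENNReal.ofReal_mul zero_le_two, ← ENNReal.ofReal_add (by positivity) (by positivity)]
  refine ENNReal.ofReal_le_ofReal ?_
  have h1 := pow_le_pow_left₀ (norm_nonneg _) h 2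
  linarith [sq_nonneg (‖B‖ - N)]

theorem Trunc_vol (y : ℂ) {s σ : ℝ} (hs : 0 < s) (hσ : 0 < σ) (hσ1 : σ < 1) :
    volume (closedBall y s \ ball y ((1 - σ) * s)) ≤ ENNReal.ofReal (2 * Real.pi * σ * s ^ 2) := by
  have h0 : 0 ≤ (1 - σ) * s := mul_nonneg (by linarith) hs.le
  have hp := Real.pi_pos
  rw [measure_sdiff (ball_subset_closedBall.trans (closedBall_subset_closedBall (by nlinarith)))
    measurableSet_ball.nullMeasurableSet measure_ball_lt_top.ne, Complex.volume_closedBall,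
    Complex.volume_ball, tsub_le_iff_right, ← ENNReal.ofReal_coe_nnreal, NNReal.coe_real_pi,
    ← ENNReal.ofReal_pow hs.le, ← ENNReal.ofReal_pow h0, ← ENNReal.ofReal_mul (by positivity),
    ← ENNReal.ofReal_mul (by positivity), ← ENNReal.ofReal_add (by positivity) (by positivity)]
  refine ENNReal.ofReal_le_ofReal ?_
  have h1 : 0 ≤ Real.pi * (σ * s) ^ 2 := by positivity
  linarith

theorem Trunc_sep {Ω K : Set ℂ} {y : ℂ} {s ρ : ℝ} (hρ : ρ ≤ s) (hB : closedBall y s ⊆ Ω)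
    (hconn : IsPreconnected (sphere y s \ K)) : Sep Ω K (K \ ball y ρ) (closedBall y s) := by
  classical
  intro c hc
  obtain ⟨c₀, h0⟩ : ∃ c₀, ∀ z ∈ sphere y s \ K, c z = c₀ := by
    rcases (sphere y s \ K).eq_empty_or_nonempty with h | ⟨p, hp⟩
    · exact ⟨0, by simp [h]⟩
    · exact ⟨c p, fun z hz =>
        hc.const hconn (fun a ha => ⟨hB (sphere_subset_closedBall ha.1), ha.2⟩) hz hp⟩
  refine ⟨fun z => if z ∈ closedBall y s then c₀ else c z, fun z hz => ?_, fun z _ hz => if_neg hz⟩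
  by_cases h1 : z ∈ ball y s
  · filter_upwards [isOpen_ball.mem_nhds h1] with w hw
    rw [if_pos (ball_subset_closedBall hw), if_pos (ball_subset_closedBall h1)]
  · have hK : z ∉ K := fun hk => hz.2 ⟨hk, fun hb => h1 (ball_subset_ball hρ hb)⟩
    by_cases h2 : z ∈ closedBall y s
    · filter_upwards [hc z ⟨hz.1, hK⟩] with w hw
      rw [if_pos h2, hw, h0 z ⟨le_antisymm h2 (not_lt.1 h1), hK⟩, ite_self]
    · filter_upwards [hc z ⟨hz.1, hK⟩, isClosed_closedBall.isOpen_compl.mem_nhds h2] with w hw hw'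
      rw [if_neg h2, if_neg hw', hw]

theorem Trunc_dir {w u : ℂ → ℝ} {K : Set ℂ} (hK : IsClosed K) {y : ℂ} {s ρ N : ℝ}
    (h0 : ∀ z ∈ ball y ρ, fderiv ℝ w z = 0)
    (h1 : ∀ z ∈ ball y s \ K, ‖fderiv ℝ w z‖ ≤ ‖fderiv ℝ u z‖ + N) :
    Dir w (closedBall y s \ (K \ ball y ρ)) ≤ 2 * Dir u ((closedBall y s \ ball y ρ) \ K) +
      ENNReal.ofReal (2 * N ^ 2) * volume (closedBall y s \ ball y ρ) := by
  have hsub : closedBall y s \ (K \ ball y ρ) ⊆
      ball y ρ ∪ sphere y s ∪ (ball y s \ ball y ρ) \ K := fun z hz => by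
    by_cases hb : z ∈ ball y ρ
    · exact Or.inl (Or.inl hb)
    · rcases (mem_closedBall.1 hz.1).eq_or_lt with h | h
      · exact Or.inl (Or.inr h)
      · exact Or.inr ⟨⟨h, hb⟩, fun hk => hz.2 ⟨hk, hb⟩⟩
  have hs2 : (ball y s \ ball y ρ) \ K ⊆ (closedBall y s \ ball y ρ) \ K :=
    sdiff_subset_sdiff_left (sdiff_subset_sdiff_left ball_subset_closedBall)
  have e1 : ∫⁻ z in ball y ρ, ‖fderiv ℝ w z‖ₑ ^ 2 = 0 := by
    rw [setLIntegral_congr_fun measurableSet_ball (g := fun _ => 0) fun z hz => by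
      simp only [h0 z hz, ← ofReal_norm, norm_zero, ENNReal.ofReal_zero, zero_pow two_ne_zero],
      lintegral_zero]
  have e2 : ∫⁻ z in sphere y s, ‖fderiv ℝ w z‖ₑ ^ 2 = 0 :=
    setLIntegral_measure_zero _ _ (Measure.addHaar_sphere _ _ _)
  have e3 := setLIntegral_mono' (μ := volume)
    ((measurableSet_ball.diff measurableSet_ball).diff hK.measurableSet)
    (s := (ball y s \ ball y ρ) \ K) fun z hz => Trunc_sq (h1 z ⟨hz.1.1, hz.2⟩)
  rw [lintegral_add_right _ measurable_const, lintegral_const_mul' _ _ ENNReal.ofNat_ne_top,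
    setLIntegral_const] at e3
  refine (lintegral_mono_set hsub).trans ((lintegral_union_le _ _ _).trans ?_)
  refine (add_le_add (lintegral_union_le _ _ _) e3).trans ?_
  rw [e1, e2, add_zero, zero_add]
  exact add_le_add (mul_le_mul_right (lintegral_mono_set hs2) _)
    (mul_le_mul_right (measure_mono (hs2.trans sdiff_subset)) _)

theorem AM0.trunc {Ω : Set ℂ} {ε : ℝ} {wk : Prop} {u : ℂ → ℝ} {K : Set ℂ}
    (h : AM0 Ω ε wk u K) {y : ℂ} {s σ G a : ℝ} (hs : 0 < s) (hσ : 0 < σ) (hσ1 : σ < 1)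
    (hB : closedBall y s ⊆ Ω) (hconn : IsPreconnected (sphere y s \ K)) (hG : 0 ≤ G)
    (hosc : ∀ z ∈ sphere y s \ K, |u z - a| ≤ G) :
    En u K (closedBall y s) ≤ 2 * En u K (closedBall y s \ ball y ((1 - σ) * s)) +
      ENNReal.ofReal (4 * Real.pi * G ^ 2 / σ) + ENNReal.ofReal (ε * s * √s) := by
  classical
  have hd : 0 < σ * s := mul_pos hσ hs
  have hρ : (1 - σ) * s < s := by linarith
  obtain ⟨T, hT, hTG, hTe⟩ := Trunc_T hG
  obtain ⟨ψ, M, hM, hψ, hψ1, hψ0, hψs⟩ := Trunc_psi y ((1 - σ) * s) hd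
  rw [show (1 - σ) * s + σ * s = s by ring] at hψs
  have hvol := Trunc_vol y hs hσ hσ1
  generalize (1 - σ) * s = ρ at *
  have hO := h.isOpen.sdiff h.closed
  have hL : IsClosed (K \ ball y ρ) := h.closed.sdiff isOpen_ball
  have hU := h.isOpen.sdiff hL
  set f : ℂ → ℝ := fun z => a + ψ z * T (u z + -a) with hf
  set w : ℂ → ℝ := fun z => if z ∈ closedBall y s then f z else u z with hw
  have f0 : ∀ z ∈ ball y ρ, f =ᶠ[𝓝 z] fun _ => a := fun z hz => by
    filter_upwards [isOpen_ball.mem_nhds hz] with p hp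
    simp only [hf, hψ0 p hp, zero_mul, add_zero]
  have wf : ∀ z ∈ ball y s, w =ᶠ[𝓝 z] f := fun z hz => by
    filter_upwards [isOpen_ball.mem_nhds hz] with p hp using if_pos (ball_subset_closedBall hp)
  have hK : ∀ z ∈ Ω \ (K \ ball y ρ), z ∉ ball y ρ → z ∈ Ω \ K := fun z hz hb =>
    ⟨hz.1, fun hk => hz.2 ⟨hk, hb⟩⟩
  have f1 : LocallyLipschitzOn (Ω \ K) f :=
    locLip_trunc ((locLip_iff hO).2 fun z _ => lipAt_const a z) ((locLip_iff hO).2 fun z hz =>
      ((locLip_iff hO).1 h.locLip z hz).add (lipAt_const (-a) z)) hψ hψ1 hT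
  have f2 : LocallyLipschitzOn (Ω \ (K \ ball y ρ)) f := (locLip_iff hU).2 fun z hz => by
    by_cases hb : z ∈ ball y ρ
    · exact (lipAt_const a z).congr (f0 z hb)
    · exact (locLip_iff hO).1 f1 z (hK z hz hb)
  have f3 : ∀ z ∈ (Ω \ (K \ ball y ρ)) ∩ sphere y s, f z = u z := fun z hz => by
    have hk := (hK z hz.1 fun hb => (hρ.trans_eq (mem_sphere.1 hz.2).symm).not_gt hb).2
    simp only [hf, hψs z hz.2, one_mul, hTe (u z + -a) (hosc z ⟨hz.2, hk⟩), add_add_neg_cancel'_right]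
  have hC : Comp Ω wk u K y s w (K \ ball y ρ) :=
    { closed := hL
      eqL := by
        ext z
        exact ⟨fun hz => ⟨hz.1.1, hz.2⟩, fun hz => ⟨⟨hz.1, fun hb =>
          hz.2 (ball_subset_closedBall (ball_subset_ball hρ.le hb))⟩, hz.2⟩⟩
      eqw := fun z _ hz => if_neg hz
      lip := locLip_glue hU (f2.mono inter_subset_left)
        (h.locLip.mono fun z hz => hK z hz.1 fun hb => hz.2 (ball_subset_ball hρ.le hb)) f3
        (fun z hz => if_pos hz.2) fun z hz => by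
          by_cases hb : z ∈ closedBall y s
          · exact (if_pos hb).trans (f3 z ⟨hz.1, le_antisymm hb (not_lt.1 hz.2)⟩)
          · exact if_neg hb
      sep := fun _ => Trunc_sep hρ.le hB hconn }
  have hD := Trunc_dir (w := w) (u := u) h.closed (y := y) (s := s) (ρ := ρ) (N := G / (σ * s))
    (fun z hz => by
      rw [((wf z (ball_subset_ball hρ.le hz)).trans (f0 z hz)).fderiv_eq, fderiv_fun_const]
      rfl)
    fun z hz => by
      have h1 := norm_fderiv_trunc (f := fun _ => a) (e := fun p => u p + -a) (z := z)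
        (differentiableAt_const a)
        ((h.diff z ⟨hB (ball_subset_closedBall hz.1), hz.2⟩).add_const _) hψ hψ1 hT
      rw [fderiv_add_const, fderiv_fun_const, Pi.zero_apply, norm_zero, zero_add, hM,
        one_div_mul_eq_div] at h1
      rw [(wf z hz.1).fderiv_eq]
      exact h1.trans (add_le_add_right (div_le_div_of_nonneg_right (hTG _) hd.le) _)
  have hV : ENNReal.ofReal (2 * (G / (σ * s)) ^ 2) * volume (closedBall y s \ ball y ρ) ≤
      ENNReal.ofReal (4 * Real.pi * G ^ 2 / σ) := by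
    refine (mul_le_mul_right hvol _).trans (le_of_eq ?_)
    rw [← ENNReal.ofReal_mul (by positivity)]
    congr 1
    field_simp
    ring
  refine (h.min y s w _ hs hB hC).trans (add_le_add_left ?_ _)
  have e : K \ ball y ρ ∩ closedBall y s = K ∩ (closedBall y s \ ball y ρ) := by
    ext z
    exact ⟨fun hz => ⟨hz.1.1, hz.2, hz.1.2⟩, fun hz => ⟨⟨hz.1, hz.2.2⟩, hz.2.1⟩⟩
  unfold En
  rw [e, mul_add, add_right_comm]
  exact add_le_add (hD.trans (add_le_add_right hV _)) (le_mul_of_one_le_left' one_le_two)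

end Vale.Agent.P128
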